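import Vale.Agent.P281.H125.KH.Glob
import Vale.Agent.P284.H894.V.V13
import Vale.Agent.P284.H894.V.V8
import Vale.Agent.P284.H287.V14A

/-!
# P281, project T-K, block C2K (helper125): almost pluriharmonic functions with given jumps
-/

open scoped Manifold ContDiff Topology Pointwise ComplexConjugate ComplexOrder
open Filter Set Metric MeasureTheory

noncomputable section

namespace Vale.Agent.P281.H125.KH

open Vale.Agent.P272.K Vale.Agent.P272.K.C2 Vale.Agent.P284.H248 Vale.Agent.P284.H894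
  Vale.Agent.P284.H894.V Vale.Agent.P284.H639.V

/-- the abstract lemma -/
theorem abs_approx {W : Type} [AddCommGroup W] [Module ℝ W] {ip en : W →ₗ[ℝ] W →ₗ[ℝ] ℝ}
    {L : W →ₗ[ℝ] W} (hs : ∀ f h, ip f h = ip h f) (hp : ∀ f, 0 ≤ ip f f)
    (hp' : ∀ f, 0 ≤ en f f) (hL : ∀ f h, ip (L f) h = -en f h)
    (hD : ∀ μ : ℝ, 0 < μ → Vale.Agent.P284.H894.V.Abs.D ip L μ) {E₀ : ℝ} (L₀ : W)
    (hE : ∀ v, 0 ≤ E₀ - 2 * ip L₀ v + en v v) {ε : ℝ} (hε : 0 < ε) :
    ∃ v, E₀ - 2 * ip L₀ v + en v v ≤ E₀ + 1 ∧ ip (L₀ + L v) (L₀ + L v) < ε := by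
  have hE0 : 0 ≤ E₀ := by
    have := hE 0
    simpa using this
  set μ : ℝ := min 1 (ε / (4 * (E₀ + 2))) with hμ
  have hμ0 : 0 < μ := lt_min one_pos (by positivity)
  have hμ1 : μ ≤ 1 := min_le_left _ _
  have hμ2 : μ * (4 * (E₀ + 2)) ≤ ε := by
    have := min_le_right 1 (ε / (4 * (E₀ + 2)))
    rwa [← hμ, le_div_iff₀ (by positivity)] at this
  obtain ⟨v, hv⟩ := hD μ hμ0 L₀ μ hμ0
  set r : W := μ • v - L v - L₀ with hr
  have hrr : ip r r < μ ^ 2 := by
    have h1 := Vale.Agent.P284.H894.V.Abs.N_sq hp r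
    have h2 := Vale.Agent.P284.H894.V.Abs.N_nonneg ip r
    rw [← h1]
    exact pow_lt_pow_left₀ hv h2 two_ne_zero
  have e1 : L₀ + L v = μ • v - r := by rw [hr]; abel
  have e2 : ip L₀ v + ip (L v) v = μ * ip v v - ip r v := by
    have : ip (L₀ + L v) v = ip (μ • v - r) v := by rw [e1]
    simpa using this
  rw [hL] at e2
  have e3 : 2 * ip r v ≤ μ + μ * ip v v := by
    have h1 := hp (r - μ • v)
    have h2 : ip (r - μ • v) (r - μ • v) = ip r r - 2 * μ * ip r v + μ ^ 2 * ip v v := by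
      simp only [map_sub, LinearMap.sub_apply, map_smul, LinearMap.smul_apply, smul_eq_mul]
      rw [hs v r]; ring
    rw [h2] at h1
    have h3 : μ * (2 * ip r v) ≤ μ * (μ + μ * ip v v) := by nlinarith
    exact le_of_mul_le_mul_left h3 hμ0
  have hvv := hp v
  have e4 : E₀ - 2 * ip L₀ v + en v v ≤ E₀ + μ - en v v - μ * ip v v := by
    have : ip L₀ v = μ * ip v v - ip r v + en v v := by linarith
    rw [this]; linarith
  have e5 := hE v
  have e6 := hp' v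
  have e7 : μ * ip v v ≤ E₀ + 1 := by linarith
  refine ⟨v, by nlinarith, ?_⟩
  rw [e1]
  have e8 : ip (μ • v - r) (μ • v - r) = μ ^ 2 * ip v v - 2 * μ * ip r v + ip r r := by
    simp only [map_sub, LinearMap.sub_apply, map_smul, LinearMap.smul_apply, smul_eq_mul]
    rw [hs v r]; ring
  have e9 : 0 ≤ μ ^ 2 * ip v v + 2 * μ * ip r v + ip r r := by
    have h1 := hp (μ • v + r)
    have h2 : ip (μ • v + r) (μ • v + r) = μ ^ 2 * ip v v + 2 * μ * ip r v + ip r r := by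
      simp only [map_add, LinearMap.add_apply, map_smul, LinearMap.smul_apply, smul_eq_mul]
      rw [hs v r]; ring
    rwa [h2] at h1
  rw [e8]
  have e10 : μ ^ 2 * ip v v ≤ μ * (E₀ + 1) := by nlinarith
  nlinarith

section
variable {n : ℕ} {Γ : Type} [Group Γ] [Finite Γ] {C : Coc n Γ} {P : PU C} {K : KM C}
  {f h : Γ → C.I → Cm n → ℝ}

omit [Finite Γ] in
theorem smul_mv (c : ℝ) (hf : Mv C f) : Mv C (fun γ a z => c * f γ a z) where
  smooth γ a z hz := contDiffAt_const.mul (hf.smooth γ a z hz)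
  jump γ a b z hz := by
    obtain ⟨k, hk⟩ := hf.jump γ a b z hz
    refine ⟨c * k, ?_⟩
    filter_upwards [hk] with y hy
    rw [hy]; ring

/-- **Almost pluriharmonic functions** in the class of `h`. -/
theorem approx (hP : VPStmt) (h1 : V1Stmt) (h2 : V2Stmt) (h3 : V3Stmt) (h7 : V7Concl)
    (P : PU C) (K : KM C) (hh' : Mv C h) :
    ∃ E₁ : ℝ, ∀ ε : ℝ, 0 < ε → ∃ v, IsTst C v ∧
      Int P K (Gr K (fun γ a z => h γ a z + v γ a z) (fun γ a z => h γ a z + v γ a z)) ≤ E₁ ∧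
      Int P K (Hh K (fun γ a z => h γ a z + v γ a z) (fun γ a z => h γ a z + v γ a z)) < ε := by
  have h5 : V5Concl := v5Stmt h1 h2 hP h3
  set ip := Asm.ipF h3 h5 P K with hipd
  set en := Asm.enF hP h3 h5 P K with hend
  set L := Asm.lapF h5 K with hLd
  have hip : ∀ f h : Asm.tst C, ip f h = Int P K fun γ a z =>
      (f : Γ → C.I → Cm n → ℝ) γ a z * (h : Γ → C.I → Cm n → ℝ) γ a z := fun _ _ => rfl
  have hen : ∀ f h : Asm.tst C, en f h = Int P K (Gr K (f : Γ → C.I → Cm n → ℝ) h) :=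
    fun _ _ => rfl
  have hL : ∀ f : Asm.tst C, ((L f : Asm.tst C) : Γ → C.I → Cm n → ℝ) = Lap K f := fun _ => rfl
  have hsq : ∀ f : Asm.tst C, ip f f = Int P K fun γ a z =>
      (f : Γ → C.I → Cm n → ℝ) γ a z ^ 2 := by
    intro f
    rw [hip]
    exact Asm.Int_congr P K fun γ a z _ => (sq _).symm
  have hs : ∀ f h : Asm.tst C, ip f h = ip h f := by
    intro f h
    rw [hip, hip]
    exact Asm.Int_congr P K fun γ a z _ => mul_comm _ _
  have hp : ∀ f : Asm.tst C, 0 ≤ ip f f := by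
    intro f
    rw [hip]
    exact Asm.Int_nonneg h3 P K (h5.fam C K f f f.2 f.2).1 fun γ a z _ => mul_self_nonneg _
  have hp' : ∀ f : Asm.tst C, 0 ≤ en f f := by
    intro f
    rw [hen]
    exact Asm.Int_nonneg h3 P K (h5.fam C K f f f.2 f.2).2.1 fun γ a z hz =>
      (hP.nonneg _ _ _ ((K.ku a).pos z (V_sub_Ω C a hz))).1
  have hLe : ∀ f h : Asm.tst C, ip (L f) h = -en f h := by
    intro f h
    rw [hip, hen, hL]
    exact h5.ibp C P K f h f.2 h.2
  have hD : ∀ μ : ℝ, 0 < μ → Vale.Agent.P284.H894.V.Abs.D ip L μ := by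
    intro μ hμ
    obtain ⟨l₀, hl₀, h⟩ := h7 n Γ C P K
    refine Vale.Agent.P284.H894.V.Abs.D_step hs hp hp' hLe hμ (le_max_left μ l₀) (Vale.Agent.P284.H894.V.Abs.D_of fun f δ hδ => ?_)
    obtain ⟨v, hv, hlt⟩ := h _ (le_max_right μ l₀) f f.2 δ hδ
    refine ⟨⟨v, hv⟩, ?_⟩
    rw [hsq]
    exact hlt
  set L₀ : Asm.tst C := ⟨Lap K h, isTst_Lap_mv hP K hh'⟩ with hL₀
  set E₀ := Int P K (Gr K h h) with hE₀
  -- the energy
  have hsum : ∀ v : Asm.tst C, Mv C (fun γ a z => h γ a z + (v : Γ → C.I → Cm n → ℝ) γ a z) :=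
    fun v => hh'.add (mv_of_tst v.2)
  have hG : ∀ v : Asm.tst C, Int P K (Gr K (fun γ a z => h γ a z + (v : Γ → C.I → Cm n → ℝ) γ a z)
      (fun γ a z => h γ a z + (v : Γ → C.I → Cm n → ℝ) γ a z)) = E₀ - 2 * ip L₀ v + en v v := by
    intro v
    have hv := mv_of_tst v.2
    have e1 : ip L₀ v = -Int P K (Gr K (v : Γ → C.I → Cm n → ℝ) h) := by
      rw [hip]
      exact ibp_mv h1 hP h3 P K v.2 hh'
    have e2 := h3.lin C P K _ _ 2 1 (fam_Gr_mv hP K hv hh') (fam_Gr_mv hP K hv hv)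
    have e3 := h3.lin C P K _ _ 1 1 (fam_Gr_mv hP K hh' hh')
      (fam_lin (fam_Gr_mv hP K hv hh') (fam_Gr_mv hP K hv hv) 2 1)
    rw [e2] at e3
    rw [e1, hen]
    have e4 : Int P K (Gr K (fun γ a z => h γ a z + (v : Γ → C.I → Cm n → ℝ) γ a z)
      (fun γ a z => h γ a z + (v : Γ → C.I → Cm n → ℝ) γ a z)) =
      Int P K (fun γ a z => 1 * Gr K h h γ a z + 1 * (2 * Gr K (v : Γ → C.I → Cm n → ℝ) h γ a z +
        1 * Gr K (v : Γ → C.I → Cm n → ℝ) v γ a z)) := by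
      refine Asm.Int_congr P K fun γ a z hz => ?_
      have hz' := V_sub_Ω C a hz
      have hpd := (K.ku a).pos z hz'
      have d1 := (hh'.smooth γ a z hz').differentiableAt (by simp : (∞ : WithTop ℕ∞) ≠ 0)
      have d2 := (hv.smooth γ a z hz').differentiableAt (by simp : (∞ : WithTop ℕ∞) ≠ 0)
      have s1 : gr (K.w a) (fun y => h γ a y + (v : Γ → C.I → Cm n → ℝ) γ a y)
          (fun y => h γ a y + (v : Γ → C.I → Cm n → ℝ) γ a y) z =
          gr (K.w a) (h γ a) (h γ a) z + 2 * gr (K.w a) ((v : Γ → C.I → Cm n → ℝ) γ a) (h γ a) z +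
          gr (K.w a) ((v : Γ → C.I → Cm n → ℝ) γ a) ((v : Γ → C.I → Cm n → ℝ) γ a) z := by
        rw [Asm.gr_add d1 d2, hP.symm _ (h γ a) _ _ hpd,
          hP.symm _ ((v : Γ → C.I → Cm n → ℝ) γ a) (fun y => h γ a y +
            (v : Γ → C.I → Cm n → ℝ) γ a y) _ hpd, Asm.gr_add d1 d2, Asm.gr_add d1 d2,
          hP.symm _ (h γ a) ((v : Γ → C.I → Cm n → ℝ) γ a) _ hpd]
        ring
      show gr (K.w a) _ _ z = 1 * gr (K.w a) _ _ z + 1 * (2 * gr (K.w a) _ _ z +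
        1 * gr (K.w a) _ _ z)
      rw [s1]
      ring
    rw [e4, e3]
    ring
  have hH : ∀ v : Asm.tst C, Int P K (Hh K (fun γ a z => h γ a z +
      (v : Γ → C.I → Cm n → ℝ) γ a z)
      (fun γ a z => h γ a z + (v : Γ → C.I → Cm n → ℝ) γ a z)) = ip (L₀ + L v) (L₀ + L v) := by
    intro v
    rw [← kahler_mv h2 hP h3 P K (hsum v), hip]
    refine Asm.Int_congr P K fun γ a z hz => ?_
    have hz' := V_sub_Ω C a hz
    have s1 : Lap K (fun γ a z => h γ a z + (v : Γ → C.I → Cm n → ℝ) γ a z) γ a z =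
        Lap K h γ a z + Lap K (v : Γ → C.I → Cm n → ℝ) γ a z := by
      rw [Lap_mem K γ hz', Lap_mem K γ hz', Lap_mem K γ hz']
      exact Asm.lap_add ((hh'.smooth γ a z hz').of_le two_le) ((v.2.smooth γ a z hz').of_le two_le)
    rw [s1]
    rfl
  refine ⟨E₀ + 1, fun ε hε => ?_⟩
  obtain ⟨v, hv1, hv2⟩ := abs_approx hs hp hp' hLe hD (E₀ := E₀) L₀ (fun v => by
    rw [← hG v]
    exact Asm.Int_nonneg h3 P K (fam_Gr_mv hP K (hsum v) (hsum v)) fun γ a z hz =>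
      (hP.nonneg _ _ _ ((K.ku a).pos z (V_sub_Ω C a hz))).1) hε
  refine ⟨v, v.2, ?_, ?_⟩
  · rw [hG]; exact hv1
  · rw [hH]; exact hv2

/-- the energy on one ball -/
theorem d1_bound (hP : VPStmt) (h3 : V3Stmt) (P : PU C) (K : KM C) (hf : Mv C f) (γ : Γ) (a : C.I) :
    ∫ z in C.V a, D1 (f γ a) z ≤ K.Lam / K.lam * Int P K (Gr K f f) := by
  classical
  have := Fintype.ofFinite Γ
  have hLl : 0 ≤ K.Lam / K.lam :=
    div_nonneg (Vale.Agent.P284.H287.V.Lam_pos K).le K.lam_pos.le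
  have hF := fam_Gr_mv hP K hf hf
  have h0 : ∀ γ a, ∀ z ∈ C.Ω a, 0 ≤ Gr K f f γ a z := fun γ a z hz =>
    (hP.nonneg (K.w a) _ z ((K.ku a).pos z hz)).1
  have e1 := h3.le C P K _ hF h0 a
  rw [tsum_fintype] at e1
  have e2 : ∫ z in C.V a, Gr K f f γ a z * vol (K.w a) z ≤
      ∑ γ, ∫ z in C.V a, Gr K f f γ a z * vol (K.w a) z := by
    refine Finset.single_le_sum (f := fun γ => ∫ z in C.V a, Gr K f f γ a z * vol (K.w a) z)
      (fun γ _ => ?_) (Finset.mem_univ γ)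
    refine setIntegral_nonneg measurableSet_ball fun z hz => ?_
    exact mul_nonneg (h0 γ a z (V_sub_Ω C a hz))
      (K.lam_pos.le.trans (K.vol_low a z (V_sub_Ω C a hz)))
  refine le_trans ?_ (mul_le_mul_of_nonneg_left (e2.trans e1) hLl)
  rw [← integral_const_mul]
  refine setIntegral_mono_on ?_ ?_ measurableSet_ball fun z hz => ?_
  · exact Vale.Agent.P284.H287.V.intV fun z hz =>
      (Vale.Agent.P284.H287.V.contAt_D1 (hf.smooth γ a z hz)).continuousWithinAt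
  · exact (Vale.Agent.P284.H287.V.intV ((hF.cont _ a).mul
      (Vale.Agent.P284.H287.V.vol_cont K a))).const_mul _
  · exact Vale.Agent.P284.H287.V.d1_le hP K f γ a (V_sub_Ω C a hz)

/-- `∫ |∂∂̄f|²` on one ball -/
theorem d2_bound (hP : VPStmt) (h3 : V3Stmt) (P : PU C) (K : KM C) (hf : Mv C f) (γ : Γ) (a : C.I) :
    ∫ z in C.V a, D2 (f γ a) z ≤ K.Lam ^ 2 / K.lam * Int P K (Hh K f f) := by
  classical
  have := Fintype.ofFinite Γ
  have hLl : 0 ≤ K.Lam ^ 2 / K.lam := div_nonneg (sq_nonneg _) K.lam_pos.le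
  have hF := fam_Hh_mv hP K hf hf
  have h0 : ∀ γ a, ∀ z ∈ C.Ω a, 0 ≤ Hh K f f γ a z := fun γ a z hz =>
    (hP.nonneg (K.w a) _ z ((K.ku a).pos z hz)).2.1 (hf.smooth γ a z hz)
  have e1 := h3.le C P K _ hF h0 a
  rw [tsum_fintype] at e1
  have e2 : ∫ z in C.V a, Hh K f f γ a z * vol (K.w a) z ≤
      ∑ γ, ∫ z in C.V a, Hh K f f γ a z * vol (K.w a) z := by
    refine Finset.single_le_sum (f := fun γ => ∫ z in C.V a, Hh K f f γ a z * vol (K.w a) z)
      (fun γ _ => ?_) (Finset.mem_univ γ)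
    refine setIntegral_nonneg measurableSet_ball fun z hz => ?_
    exact mul_nonneg (h0 γ a z (V_sub_Ω C a hz))
      (K.lam_pos.le.trans (K.vol_low a z (V_sub_Ω C a hz)))
  refine le_trans ?_ (mul_le_mul_of_nonneg_left (e2.trans e1) hLl)
  rw [← integral_const_mul]
  refine setIntegral_mono_on ?_ ?_ measurableSet_ball fun z hz => ?_
  · exact Vale.Agent.P284.H287.V.intV fun z hz =>
      (Vale.Agent.P284.H287.V.contAt_D2 (hf.smooth γ a z hz)).continuousWithinAt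
  · exact (Vale.Agent.P284.H287.V.intV ((hF.cont _ a).mul
      (Vale.Agent.P284.H287.V.vol_cont K a))).const_mul _
  · exact Vale.Agent.P284.H287.V.d2_le hP K f γ a (V_sub_Ω C a hz)
      (hf.smooth γ a z (V_sub_Ω C a hz))

end

end Vale.Agent.P281.H125.KH
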