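import Vale.Agent.P281.H125.KH.MkCoc
import Vale.Agent.P284.H639.V5

/-!
# P281, project T-K, block C2K (helper125): the Kähler metric on the pieces
-/

open Set Filter Metric MeasureTheory Vale.Agent.P272.K
open scoped Topology ContDiff ComplexConjugate ComplexOrder

noncomputable section

namespace Vale.Agent.P281.H125.KH.Sh

open Vale.Agent.P281.H64.TK Vale.Agent.P284.H894 Vale.Agent.P284.H894.V

section bds
variable {n : ℕ}

theorem quad_one' (w : Cm n) : (quad (1 : Matrix (Fin n) (Fin n) ℂ) w).re = ∑ p, ‖w p‖ ^ 2 := by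
  unfold quad
  rw [Complex.re_sum]
  refine Finset.sum_congr rfl fun i _ => ?_
  rw [Finset.sum_eq_single i]
  · rw [Matrix.one_apply_eq, one_mul, cj, Complex.mul_conj, Complex.ofReal_re,
      Complex.normSq_eq_norm_sq]
  · intro j _ hj
    rw [Matrix.one_apply_ne (Ne.symm hj), zero_mul]
  · simp

theorem sum_eq_quad (M : Matrix (Fin n) (Fin n) ℂ) (v : Cm n) :
    (∑ j, ∑ k, M j k * v j * conj (v k)).re = (quad M v).re := by
  unfold quad
  simp only [cj, mul_assoc]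

/-- bounds on a compact set (adapted from `P284/H639/V15.lean`) -/
theorem exists_bds {Q : Set (Cm n)} (hQ : IsCompact Q) (M : Cm n → Matrix (Fin n) (Fin n) ℂ)
    (hM : ∀ z ∈ Q, ∀ i j, ContDiffAt ℝ ∞ (fun y => M y i j) z) (hpos : ∀ z ∈ Q, (M z).PosDef) :
    ∃ B : ℝ, 0 < B ∧ ∀ z ∈ Q, (∀ ξ : Cm n, ∑ j, ‖ξ j‖ ^ 2 ≤ B * (quad (M z) ξ).re) ∧
      (∀ ξ : Cm n, (quad (M z) ξ).re ≤ B * ∑ j, ‖ξ j‖ ^ 2) ∧ vol M z ≤ B ∧ 1 ≤ B * vol M z := by
  have hMc : ∀ i j, ContinuousOn (fun z => M z i j) Q := fun i j z hz =>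
    (hM z hz i j).continuousAt.continuousWithinAt
  have h1c : ∀ i j, ContinuousOn (fun _ : Cm n => (1 : Matrix (Fin n) (Fin n) ℂ) i j) Q :=
    fun i j => continuousOn_const
  obtain ⟨B1, hB1, h1⟩ := exists_quad_lower hQ M (fun _ => 1) hMc h1c hpos
  obtain ⟨B2, hB2, h2⟩ := exists_quad_lower hQ (fun _ => 1) M h1c hMc fun _ _ => Matrix.PosDef.one
  have hv : ∀ z ∈ Q, 0 < vol M z := fun z hz => (Complex.pos_iff.1 (hpos z hz).det_pos).1
  have hvc : ContinuousOn (vol M) Q := by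
    intro z hz
    have h1 : ContinuousAt M z :=
      continuousAt_pi.2 fun i => continuousAt_pi.2 fun j => (hM z hz i j).continuousAt
    have h2 : Continuous fun A : Matrix (Fin n) (Fin n) ℂ => A.det := continuous_id.matrix_det
    exact (Complex.continuous_re.continuousAt.comp
      (h2.continuousAt.comp h1)).continuousWithinAt
  obtain ⟨B3, h3⟩ := hQ.exists_bound_of_continuousOn hvc
  obtain ⟨B4, h4⟩ := hQ.exists_bound_of_continuousOn (hvc.inv₀ fun z hz => (hv z hz).ne')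
  refine ⟨B1 + B2 + |B3| + |B4|, by positivity, fun z hz => ?_⟩
  have hq : ∀ ξ : Cm n, 0 ≤ (quad (M z) ξ).re := fun ξ => quad_nonneg (hpos z hz).posSemidef ξ
  have hs : ∀ ξ : Cm n, 0 ≤ ∑ j, ‖ξ j‖ ^ 2 := fun ξ => Finset.sum_nonneg fun i _ => sq_nonneg _
  refine ⟨fun ξ => ?_, fun ξ => ?_, ?_, ?_⟩
  · have := h1 z hz ξ
    rw [quad_one'] at this
    refine this.trans (mul_le_mul_of_nonneg_right ?_ (hq ξ))
    have := abs_nonneg B3; have := abs_nonneg B4; linarith
  · have := h2 z hz ξ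
    rw [quad_one'] at this
    refine this.trans (mul_le_mul_of_nonneg_right ?_ (hs ξ))
    have := abs_nonneg B3; have := abs_nonneg B4; linarith
  · have := h3 z hz
    rw [Real.norm_eq_abs] at this
    have h5 := le_abs_self (vol M z)
    have h6 := le_abs_self B3
    have := abs_nonneg B4
    linarith
  · have h5 := h4 z hz
    rw [Real.norm_eq_abs, Pi.inv_apply] at h5
    have h6 : (vol M z)⁻¹ ≤ B1 + B2 + |B3| + |B4| := by
      have h7 := le_abs_self (vol M z)⁻¹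
      have h8 := le_abs_self B4
      have := abs_nonneg B3
      linarith
    have h9 := mul_le_mul_of_nonneg_right h6 (hv z hz).le
    rwa [inv_mul_cancel₀ (hv z hz).ne'] at h9

end bds

variable {d : ℕ} {E Γ : Type} [TopologicalSpace E] [Group Γ] [MulAction Γ E]
  [ContinuousConstSMul Γ E] [ConnectedSpace E] {S : Sheets d E Γ}
  {w : Fin S.N → Cm d → Matrix (Fin d) (Fin d) ℂ}

omit [ContinuousConstSMul Γ E] [ConnectedSpace E] in
theorem jac_eq {i j : Fin S.N} {z : Cm d} (hz : z ∈ U S i j) :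
    (Matrix.of fun p k => dz k (fun y => τ S i j y p) z) = jac (τ S i j) z := by
  have h := (analyticAt_tau hz).differentiableAt
  ext p k
  rw [Matrix.of_apply, dz_of_holo (differentiableAt_comp_apply h p), fderiv_apply h p]
  rfl

theorem exists_KM (hw : Kah S w) (R : Ctr d) : Nonempty (KM (mk S R)) := by
  have hd : ∀ i, ∀ z ∈ ball (0 : Cm d) 3, ∀ j k, ContDiffAt ℝ ∞ (fun y => w i y j k) z :=
    fun i z hz j k => (hw.smooth i j k).contDiffAt (isOpen_ball.mem_nhds hz)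
  have hsub : ∀ z ∈ closedBall (0 : Cm d) 2, z ∈ ball (0 : Cm d) 3 := fun z hz =>
    mem_ball_zero_iff.2 (by linarith [mem_closedBall_zero_iff.1 hz])
  have h0 : ∀ i : Fin S.N, ∃ B : ℝ, 0 < B ∧ ∀ z ∈ closedBall (0 : Cm d) 2,
      (∀ ξ : Cm d, ∑ j, ‖ξ j‖ ^ 2 ≤ B * (quad (w i z) ξ).re) ∧
      (∀ ξ : Cm d, (quad (w i z) ξ).re ≤ B * ∑ j, ‖ξ j‖ ^ 2) ∧ vol (w i) z ≤ B ∧
      1 ≤ B * vol (w i) z := fun i =>
    exists_bds (isCompact_closedBall _ _) (w i) (fun z hz => hd i z (hsub z hz))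
      fun z hz => hw.posDef i z (hsub z hz)
  choose B hB hB' using h0
  obtain ⟨x⟩ : Nonempty E := inferInstance
  obtain ⟨-, i₀, -, -, -⟩ := S.cover x
  have : Nonempty (Fin S.N) := ⟨i₀⟩
  obtain ⟨i0, hi0⟩ := Finite.exists_max B
  have h : ∀ i, ∀ z ∈ closedBall (0 : Cm d) 2,
      (∀ ξ : Cm d, ∑ j, ‖ξ j‖ ^ 2 ≤ B i0 * (quad (w i z) ξ).re) ∧
      (∀ ξ : Cm d, (quad (w i z) ξ).re ≤ B i0 * ∑ j, ‖ξ j‖ ^ 2) ∧ vol (w i) z ≤ B i0 ∧
      1 ≤ B i0 * vol (w i) z := by
    intro i z hz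
    obtain ⟨h1, h2, h3, h4⟩ := hB' i z hz
    have hpos := hw.posDef i z (hsub z hz)
    refine ⟨fun ξ => (h1 ξ).trans (mul_le_mul_of_nonneg_right (hi0 i) ?_),
      fun ξ => (h2 ξ).trans (mul_le_mul_of_nonneg_right (hi0 i) ?_), h3.trans (hi0 i),
      h4.trans (mul_le_mul_of_nonneg_right (hi0 i) ?_)⟩
    · exact quad_nonneg hpos.posSemidef ξ
    · exact Finset.sum_nonneg fun i _ => sq_nonneg _
    · exact (Complex.pos_iff.1 hpos.det_pos).1.le
  have hΩ : ∀ a : Idx S R, ∀ z ∈ ball (cen a) (4 * (1 / 4)), z ∈ closedBall (0 : Cm d) 2 :=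
    fun a z hz => ball_sub (a := a) (r := 4 * (1 / 4)) (by norm_num) (ball_subset_closedBall hz)
  have hBp := hB i0
  exact ⟨{
    w := fun a => w a.1
    ku := fun a =>
      { isOpen := isOpen_ball
        smooth := fun z hz => hd a.1 z (hsub z (hΩ a z hz))
        pos := fun z hz => hw.posDef a.1 z (hsub z (hΩ a z hz))
        closed := fun z hz i j k => hw.closed a.1 z (hsub z (hΩ a z hz)) i j k }
    change := fun a b z hz => by
      have hU : z ∈ U S a.1 b.1 := hz.2.1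
      have h1 := hw.change a.1 b.1 z hU.1 _ (tau_mem hU) (κ S a.1 b.1 z) (τ S a.1 b.1)
        (analyticAt_tau hU) rfl (by
          filter_upwards [isOpen_U.mem_nhds hU, kappa_local hU] with u hu hk
          rw [← hk]
          exact sigma_eq hu)
      have h2 : Vale.Agent.P284.H894.V.jac (mk S R) a b z = jac (τ S a.1 b.1) z := jac_eq hU
      rw [h2]
      exact h1
    lam := (B i0)⁻¹
    lam_pos := inv_pos.2 hBp
    Lam := B i0
    low := fun a z hz v => by
      rw [sum_eq_quad, inv_mul_le_iff₀ hBp]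
      exact (h a.1 z (hΩ a z hz)).1 v
    up := fun a z hz v => by
      rw [sum_eq_quad]
      exact (h a.1 z (hΩ a z hz)).2.1 v
    vol_up := fun a z hz => (h a.1 z (hΩ a z hz)).2.2.1
    vol_low := fun a z hz => by
      rw [inv_le_iff_one_le_mul₀' hBp]
      exact (h a.1 z (hΩ a z hz)).2.2.2 }⟩

end Vale.Agent.P281.H125.KH.Sh
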