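import Vale.Agent.P281.H125.KH.Main
import Vale.Agent.P281.H125.KH.MkKM
import Vale.Agent.P281.H603.K.Base
import Vale.Agent.P301.H949.Loc
import Vale.Agent.P211.HK.LocSys

/-!
# P281, project T-K, block C2K (helper125): Hodge theory of one compact Kähler manifold
-/

open Set Filter Metric MeasureTheory Vale.Agent.P272.K
open scoped Topology ContDiff ComplexConjugate ComplexOrder

noncomputable section

namespace Vale.Agent.P281.H125.KH.Sh

open Vale.Agent.P281.H64.TK Vale.Agent.P284.H894 Vale.Agent.P284.H894.V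

variable {d : ℕ} {E Γ : Type} [TopologicalSpace E] [Group Γ] [MulAction Γ E]
  [ContinuousConstSMul Γ E] {S : Sheets d E Γ}
  {w : Fin S.N → Cm d → Matrix (Fin d) (Fin d) ℂ}

/-! ### The pluriharmonic function on `E` -/

/-- `v : E → ℝ` is smooth and pluriharmonic, with periods `χ` -/
structure PHE (S : Sheets d E Γ) (χ : Γ → ℝ) (v : E → ℝ) : Prop where
  add : ∀ γ x, v (γ • x) = χ γ + v x
  smooth : ∀ (i : Fin S.N) (γ : Γ), ∀ z ∈ ball (0 : Cm d) 3,
    ContDiffAt ℝ ∞ (fun y => v (γ • S.σ i y)) z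
  hess : ∀ (i : Fin S.N) (γ : Γ), ∀ z ∈ ball (0 : Cm d) 3,
    cHess (fun y => v (γ • S.σ i y)) z = 0

/-- every point of `E` lies in a small ball -/
theorem exists_small (R : Ctr d) (x : E) : ∃ (γ : Γ) (a : Idx S R) (z : Cm d),
    z ∈ ball (cen a) (2 * (1 / 4)) ∧ γ • S.σ a.1 z = x := by
  obtain ⟨γ, i, w, hw, h⟩ := S.cover x
  obtain ⟨c, hc, hwc⟩ := R.cov w hw.le
  exact ⟨γ, (i, ⟨c, hc⟩), w, ball_subset_ball (by norm_num) hwc, h⟩

theorem exists_PHE [ConnectedSpace E] (R : Ctr d) {χ : Γ → ℝ}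
    (hχ : ∀ x y, χ (x * y) = χ x + χ y) {u : Γ → Idx S R → Cm d → ℝ}
    (hu : PH (mk S R) χ u) : ∃ v : E → ℝ, PHE S χ v := by
  choose g a z hz hx using fun x : E => exists_small (S := S) R x
  set v : E → ℝ := fun x => u (g x) (a x) (z x) with hv
  have hb4 : ∀ {b : Idx S R} {y : Cm d}, y ∈ ball (cen b) (2 * (1 / 4)) →
      y ∈ ball (cen b) (4 * (1 / 4)) := fun h => ball_subset_ball (by norm_num) h
  -- the value of `v` in the pieces
  have key : ∀ (γ : Γ) (b : Idx S R) (y : Cm d), y ∈ ball (cen b) (2 * (1 / 4)) →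
      v (γ • S.σ b.1 y) = u γ b y := by
    intro γ b y hy
    obtain ⟨x, hxd⟩ : ∃ x, x = γ • S.σ b.1 y := ⟨_, rfl⟩
    rw [← hxd]
    have h1 : S.σ (a x).1 (z x) = ((g x)⁻¹ * γ) • S.σ b.1 y := by
      rw [mul_smul, ← hxd, eq_inv_smul_iff, hx x]
    have h3 := ball3 (hb4 (hz x))
    have h4 := ball3 (hb4 hy)
    obtain ⟨h5, h6⟩ := tau_unique h3 h4 h1
    have hO : z x ∈ Ov (a x) b := ⟨hb4 (hz x), mem_U h3 h4 h1, by rw [h5]; exact hb4 hy⟩
    have h7 := hu.compat (g x) (a x) b (z x) hO (hz x) (by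
      show τ S (a x).1 b.1 (z x) ∈ ball (cen b) (2 * (1 / 4))
      rw [h5]; exact hy)
    have h8 : u (g x) (a x) (z x) =
        u (g x * κ S (a x).1 b.1 (z x)) b (τ S (a x).1 b.1 (z x)) := h7
    show u (g x) (a x) (z x) = u γ b y
    rw [h8, h5, h6, mul_inv_cancel_left]
  -- local form of `v` in a sheet
  have loc : ∀ (i : Fin S.N) (γ : Γ), ∀ y ∈ ball (0 : Cm d) 3, ∃ (γ' : Γ) (b : Idx S R),
      y ∈ U S i b.1 ∧ τ S i b.1 y ∈ ball (cen b) (2 * (1 / 4)) ∧
      ∀ᶠ y' in 𝓝 y, v (γ • S.σ i y') = u γ' b (τ S i b.1 y') := by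
    intro i γ y hy
    obtain ⟨x, hxd⟩ : ∃ x, x = γ • S.σ i y := ⟨_, rfl⟩
    have h1 : S.σ i y = (γ⁻¹ * g x) • S.σ (a x).1 (z x) := by
      rw [mul_smul, hx x, eq_inv_smul_iff]
      exact hxd.symm
    have h3 := ball3 (hb4 (hz x))
    obtain ⟨h5, h6⟩ := tau_unique hy h3 h1
    have hU : y ∈ U S i (a x).1 := mem_U hy h3 h1
    refine ⟨g x, a x, hU, by rw [h5]; exact hz x, ?_⟩
    have h7 : ∀ᶠ y' in 𝓝 y, τ S i (a x).1 y' ∈ ball (cen (a x)) (2 * (1 / 4)) := by
      refine (analyticAt_tau hU).continuousAt.eventually (isOpen_ball.mem_nhds ?_)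
      rw [h5]; exact hz x
    filter_upwards [h7, isOpen_U.mem_nhds hU, kappa_local hU] with y' h8 h9 h10
    rw [← key (g x) (a x) _ h8, sigma_eq h9, smul_smul, h10, h6, mul_inv_cancel_left]
  refine ⟨v, ⟨fun γ x => ?_, fun i γ y hy => ?_, fun i γ y hy => ?_⟩⟩
  · have h1 : v (γ • x) = u (γ * g x) (a x) (z x) := by
      rw [← key (γ * g x) (a x) (z x) (hz x), mul_smul, hx x]
    have h2 := hu.add (γ * g x) (a x) (z x) (hz x)
    have h3 := hu.add (g x) (a x) (z x) (hz x)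
    show v (γ • x) = χ γ + u (g x) (a x) (z x)
    rw [h1, h2, h3, hχ]
    ring
  · obtain ⟨γ', b, h1, h2, h3⟩ := loc i γ y hy
    have h4 := hu.smooth γ' b _ h2
    have h5 : ContDiffAt ℝ ∞ (τ S i b.1) y :=
      ((analyticAt_tau h1).contDiffAt.restrict_scalars ℝ)
    exact (h4.comp y h5).congr_of_eventuallyEq h3
  · obtain ⟨γ', b, h1, h2, h3⟩ := loc i γ y hy
    have h4 := hu.smooth γ' b _ h2
    have h5 : ∀ᶠ y' in 𝓝 y, DifferentiableAt ℂ (τ S i b.1) y' := by
      filter_upwards [isOpen_U.mem_nhds h1] with y' hy'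
      exact (analyticAt_tau hy').differentiableAt
    rw [Vale.Agent.P284.H730.V.cHess_comp h5 h4 h3, hu.hess γ' b _ h2]
    simp

/-! ### The conjugate function -/

/-- `v + i s` is holomorphic near `x` -/
def Par (S : Sheets d E Γ) (v : E → ℝ) (x : E) (s : E → ℝ) : Prop :=
  ∀ (i : Fin S.N) (γ : Γ) (z : Cm d), z ∈ ball (0 : Cm d) 3 → x = γ • S.σ i z →
    ∀ᶠ y in 𝓝 z, DifferentiableAt ℂ
      (fun y => (v (γ • S.σ i y) : ℂ) + (s (γ • S.σ i y) : ℂ) * Complex.I) y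

theorem par_of {v s : E → ℝ} {i : Fin S.N} {γ : Γ} {z : Cm d} (hz : z ∈ ball (0 : Cm d) 3)
    (h : ∀ᶠ y in 𝓝 z, DifferentiableAt ℂ
      (fun y => (v (γ • S.σ i y) : ℂ) + (s (γ • S.σ i y) : ℂ) * Complex.I) y) :
    Par S v (γ • S.σ i z) s := by
  intro j γ' w hw he
  have h1 : S.σ j w = (γ'⁻¹ * γ) • S.σ i z := by
    rw [mul_smul, he, smul_smul, inv_mul_cancel, one_smul]
  have hU : w ∈ U S j i := mem_U hw hz h1
  obtain ⟨h2, h3⟩ := tau_unique hw hz h1
  have h4 : ∀ᶠ u in 𝓝 w, DifferentiableAt ℂ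
      (fun y => (v (γ • S.σ i y) : ℂ) + (s (γ • S.σ i y) : ℂ) * Complex.I) (τ S j i u) := by
    have h' : ∀ᶠ u in 𝓝 (τ S j i w), DifferentiableAt ℂ
        (fun y => (v (γ • S.σ i y) : ℂ) + (s (γ • S.σ i y) : ℂ) * Complex.I) u := by
      rw [h2]; exact h
    exact (analyticAt_tau hU).continuousAt.eventually h'
  have h5 : ∀ᶠ u in 𝓝 w, u ∈ U S j i ∧ κ S j i u = γ'⁻¹ * γ := by
    filter_upwards [isOpen_U.mem_nhds hU, kappa_local hU] with u a b
    exact ⟨a, b.trans h3⟩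
  filter_upwards [h4, h5, h5.eventually_nhds] with u h6 h7 h8
  have h9 := DifferentiableAt.comp u h6 (analyticAt_tau h7.1).differentiableAt
  refine h9.congr_of_eventuallyEq ?_
  filter_upwards [h8] with y hy
  have h10 : γ' • S.σ j y = γ • S.σ i (τ S j i y) := by
    rw [sigma_eq hy.1, hy.2, smul_smul, mul_inv_cancel_left]
  show _ = (v (γ • S.σ i (τ S j i y)) : ℂ) + (s (γ • S.σ i (τ S j i y)) : ℂ) * Complex.I
  rw [← h10]

theorem par_sub {v : E → ℝ} {x : E} {s s' : E → ℝ} (hs : Par S v x s)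
    (hs' : Par S v x s') : ∀ᶠ q in 𝓝 x, s q - s' q = s x - s' x := by
  obtain ⟨γ, i, z, hz, rfl⟩ := S.cover x
  have hz3 : z ∈ ball (0 : Cm d) 3 := mem_ball_zero_iff.2 (by linarith)
  rw [← map_nhds_smul γ i hz3, eventually_map]
  obtain ⟨r, hr, hb⟩ := Metric.eventually_nhds_iff_ball.1
    ((hs i γ z hz3 rfl).and (hs' i γ z hz3 rfl))
  filter_upwards [ball_mem_nhds z hr] with u hu
  have h1 := Vale.Agent.P301.H949.const_of_re_zero
    (D := fun y => ((v (γ • S.σ i y) : ℂ) + (s (γ • S.σ i y) : ℂ) * Complex.I) -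
      ((v (γ • S.σ i y) : ℂ) + (s' (γ • S.σ i y) : ℂ) * Complex.I)) (isOpen_ball (x := z) (ε := r))
    (convex_ball z r)
    (fun y hy => ((hb y hy).1.sub (hb y hy).2).differentiableWithinAt)
    (fun y hy => by simp) hu (mem_ball_self hr)
  have h2 := congrArg Complex.im h1
  simpa using h2

open Classical in
/-- a function on the image of a sheet -/
def ex (S : Sheets d E Γ) (γ : Γ) (i : Fin S.N) (F : Cm d → ℝ) (q : E) : ℝ :=
  if h : ∃ y ∈ ball (0 : Cm d) 3, γ • S.σ i y = q then F h.choose else 0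

omit [ContinuousConstSMul Γ E] in
theorem ex_eq (γ : Γ) (i : Fin S.N) (F : Cm d → ℝ) {y : Cm d} (hy : y ∈ ball (0 : Cm d) 3) :
    ex S γ i F (γ • S.σ i y) = F y := by
  have h : ∃ y' ∈ ball (0 : Cm d) 3, γ • S.σ i y' = γ • S.σ i y := ⟨y, hy, rfl⟩
  have h1 := h.choose_spec
  have h2 : S.σ i h.choose = S.σ i y := by
    have := congrArg (fun e => γ⁻¹ • e) h1.2
    simpa [smul_smul] using this
  obtain ⟨-, h3⟩ := S.inj i _ h1.1 y hy 1 (by rw [one_smul]; exact h2)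
  simp only [ex, h, dif_pos]
  rw [h3]

theorem locSys {χ : Γ → ℝ} {v : E → ℝ} (hv : PHE S χ v) :
    Vale.Agent.P211.HK.LocSys (X := E) (F := fun _ => ℝ) (Par S v) where
  opn x s hs := by
    obtain ⟨γ, i, z, hz, rfl⟩ := S.cover x
    have hz3 : z ∈ ball (0 : Cm d) 3 := mem_ball_zero_iff.2 (by linarith)
    rw [← map_nhds_smul γ i hz3, eventually_map]
    filter_upwards [(hs i γ z hz3 rfl).eventually_nhds, isOpen_ball.mem_nhds hz3] with u h1 h2
    exact par_of h2 h1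
  uniq x s s' hs hs' h := by
    filter_upwards [par_sub hs hs'] with q hq
    rw [h, sub_self] at hq
    exact sub_eq_zero.1 hq
  clo x s s' hs hs' h := by
    obtain ⟨q, hq, hq'⟩ := (h.and_eventually (par_sub hs hs')).exists
    rw [hq, sub_self] at hq'
    exact (sub_eq_zero.1 hq'.symm)
  loc x s s' hs h := by
    obtain ⟨γ, i, z, hz, rfl⟩ := S.cover x
    have hz3 : z ∈ ball (0 : Cm d) 3 := mem_ball_zero_iff.2 (by linarith)
    refine par_of hz3 ?_
    rw [← map_nhds_smul γ i hz3, eventually_map] at h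
    filter_upwards [hs i γ z hz3 rfl, h.eventually_nhds] with u h1 h2
    refine h1.congr_of_eventuallyEq ?_
    filter_upwards [h2] with y hy
    rw [hy]
  ext x := by
    obtain ⟨γ, i, z, hz, rfl⟩ := S.cover x
    have hz3 : z ∈ ball (0 : Cm d) 3 := mem_ball_zero_iff.2 (by linarith)
    obtain ⟨F, hF, hFr⟩ := Vale.Agent.P301.H949.exists_re (φ := fun y => v (γ • S.σ i y))
      (isOpen_ball (x := (0 : Cm d)) (ε := 3)) (convex_ball _ _)
      (fun y hy => (hv.smooth i γ y hy).of_le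
        (show ((2 : ℕ∞) : WithTop ℕ∞) ≤ ((⊤ : ℕ∞) : WithTop ℕ∞) from WithTop.coe_le_coe.2 le_top))
      (fun y hy => hv.hess i γ y hy)
    have hopen : ∀ᶠ q in 𝓝 (γ • S.σ i z), ∃ y ∈ ball (0 : Cm d) 3, γ • S.σ i y = q := by
      rw [← map_nhds_smul γ i hz3, eventually_map]
      filter_upwards [isOpen_ball.mem_nhds hz3] with y hy using ⟨y, hy, rfl⟩
    refine ⟨{q | ∃ y ∈ ball (0 : Cm d) 3, γ • S.σ i y = q}, hopen, fun q hq c => ?_⟩
    refine ⟨fun q' => ex S γ i (fun y => (F y).im) q' + (c - ex S γ i (fun y => (F y).im) q),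
      by ring, ?_⟩
    rintro _ ⟨y, hy, rfl⟩
    refine par_of hy ?_
    filter_upwards [isOpen_ball.mem_nhds hy] with y' hy'
    have h1 : DifferentiableAt ℂ (fun y => F y +
        ((c - ex S γ i (fun y => (F y).im) q : ℝ) : ℂ) * Complex.I) y' :=
      (hF.differentiableAt (isOpen_ball.mem_nhds hy')).add_const _
    refine h1.congr_of_eventuallyEq ?_
    filter_upwards [isOpen_ball.mem_nhds hy'] with y'' hy''
    rw [ex_eq γ i _ hy'', ← hFr y'' hy'']
    apply Complex.ext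
    · simp
    · simp

/-- The sheet `γ • σ i`, as a local homeomorphism from `ℂ^d` to `E`. -/
def ph (S : Sheets d E Γ) (γ : Γ) (i : Fin S.N) : OpenPartialHomeomorph (Cm d) E :=
  OpenPartialHomeomorph.ofContinuousOpenRestrict
    (InjOn.toPartialEquiv (fun z => γ • S.σ i z) (ball 0 3)
      ((MulAction.injective γ).comp_injOn (fun z hz w hw h =>
        (S.inj i z hz w hw 1 (by rw [one_smul]; exact h)).2)))
    (fun z hz => (show ContinuousAt (fun z => γ • S.σ i z) z from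
      (map_nhds_smul γ i hz).le).continuousWithinAt)
    (by
      rw [IsOpenMap]
      intro U hU
      obtain ⟨V, hV, rfl⟩ := isOpen_induced_iff.1 hU
      have h1 : ((ball (0 : Cm d) 3).domRestrict fun z => γ • S.σ i z) '' (Subtype.val ⁻¹' V) =
          (fun z => γ • S.σ i z) '' (V ∩ ball 0 3) := by
        ext e
        constructor
        · rintro ⟨⟨z, hz⟩, hzV, rfl⟩
          exact ⟨z, ⟨hzV, hz⟩, rfl⟩
        · rintro ⟨z, ⟨hzV, hz⟩, rfl⟩
          exact ⟨⟨z, hz⟩, hzV, rfl⟩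
      have h2 : IsOpen ((fun z => γ • S.σ i z) '' (V ∩ ball 0 3)) := by
        rw [isOpen_iff_mem_nhds]
        rintro _ ⟨z, hz, rfl⟩
        rw [← map_nhds_smul γ i hz.2]
        exact image_mem_map ((hV.inter isOpen_ball).mem_nhds hz)
      rw [← h1] at h2
      exact h2)
    isOpen_ball

/-- the coordinate near `e` -/
theorem exists_ph (S : Sheets d E Γ) (e : E) : ∃ (γ : Γ) (i : Fin S.N), e ∈ (ph S γ i).target := by
  obtain ⟨γ, i, z, hz, rfl⟩ := S.cover e
  exact ⟨γ, i, z, mem_ball_zero_iff.2 (by linarith), rfl⟩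

/-- `E` is a manifold. -/
@[implicit_reducible] def charted (S : Sheets d E Γ) : ChartedSpace (Cm d) E where
  atlas := {φ | ∃ γ i, φ = (ph S γ i).symm}
  chartAt e := (ph S (exists_ph S e).choose (exists_ph S e).choose_spec.choose).symm
  mem_chart_source e := (exists_ph S e).choose_spec.choose_spec
  chart_mem_atlas e := ⟨_, _, rfl⟩

theorem locPathConnected (S : Sheets d E Γ) : LocallyPathConnectedSpace E :=
  @ChartedSpace.locallyPathConnectedSpace (Cm d) E _ _ (charted S) _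

theorem exists_add [SimplyConnectedSpace E] {χ : Γ → ℝ} {v : E → ℝ} (hv : PHE S χ v) :
    ∃ (h : E → ℂ) (c : Γ → ℂ), Add S h c ∧ ∀ γ, (c γ).re = χ γ := by
  have : LocallyPathConnectedSpace E := locPathConnected S
  obtain ⟨e₀⟩ : Nonempty E := inferInstance
  obtain ⟨s, ⟨-, hs⟩, -⟩ := (locSys hv).existsUnique e₀ (0 : ℝ)
  have hadd : ∀ (γ : Γ) (e : E), s (γ • e) = s e + (s (γ • e₀) - s e₀) := by
    intro γ e
    have h1 : ∀ q, Par S v q fun e => s (γ • e) - (s (γ • e₀) - s e₀) := by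
      intro q
      obtain ⟨γ', i, z, hz, rfl⟩ := S.cover q
      have hz3 : z ∈ ball (0 : Cm d) 3 := mem_ball_zero_iff.2 (by linarith)
      refine par_of hz3 ?_
      filter_upwards [hs _ i (γ * γ') z hz3 rfl] with u hu
      have h2 := hu.sub_const ((χ γ : ℂ) + ((s (γ • e₀) - s e₀ : ℝ) : ℂ) * Complex.I)
      refine h2.congr_of_eventuallyEq (Eventually.of_forall fun y => ?_)
      show (v (γ' • S.σ i y) : ℂ) + ((s (γ • γ' • S.σ i y) - (s (γ • e₀) - s e₀) : ℝ) : ℂ) *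
        Complex.I = (v ((γ * γ') • S.σ i y) : ℂ) + (s ((γ * γ') • S.σ i y) : ℂ) * Complex.I -
        ((χ γ : ℂ) + ((s (γ • e₀) - s e₀ : ℝ) : ℂ) * Complex.I)
      rw [mul_smul, hv.add γ (γ' • S.σ i y)]
      push_cast
      ring
    have h3 := (locSys hv).eqOn (V := univ) isPreconnected_univ (fun q _ => h1 q)
      (fun q _ => hs q) (p := e₀) (mem_univ _) (by ring) e (mem_univ e)
    have h4 : s (γ • e) - (s (γ • e₀) - s e₀) = s e := h3
    rw [← h4]
    ring
  refine ⟨fun e => (v e : ℂ) + (s e : ℂ) * Complex.I,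
    fun γ => (χ γ : ℂ) + ((s (γ • e₀) - s e₀ : ℝ) : ℂ) * Complex.I, ⟨fun i z hz => ?_, ?_⟩, ?_⟩
  · have := (hs _ i 1 z hz rfl).self_of_nhds
    simp only [one_smul] at this
    exact this.differentiableWithinAt
  · intro γ e
    rw [hv.add, hadd]
    push_cast
    ring
  · intro γ
    simp

end Vale.Agent.P281.H125.KH.Sh

namespace Vale.Agent.P281.H125.KH

open Vale.Agent.P281.H64.TK

/-- **C2**: Hodge theory of one compact Kähler manifold. -/
theorem c2 : C2Stmt := by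
  intro d E Γ _ _ _ _ _ _ S w _ hw
  refine ⟨fun a ha => ?_, fun h c H hc e e' =>
    Vale.Agent.P281.H603.K.unique_of_re S H hc e e'⟩
  obtain ⟨R⟩ := Sh.exists_ctr d
  obtain ⟨K⟩ := Sh.exists_KM hw R
  obtain ⟨u, hu⟩ := exists_PH (Sh.mk S R) K a ha
  obtain ⟨v, hv⟩ := Sh.exists_PHE R ha hu
  exact Sh.exists_add hv

end Vale.Agent.P281.H125.KH
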