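import Vale.Agent.P281.H125.KH.Mv

/-!
# P281, project T-K, block C2K (helper125): global identities for multivalued functions
-/

open scoped Manifold ContDiff Topology Pointwise ComplexConjugate ComplexOrder
open Filter Set Metric MeasureTheory

noncomputable section

namespace Vale.Agent.P281.H125.KH

open Vale.Agent.P272.K Vale.Agent.P272.K.C2 Vale.Agent.P284.H248 Vale.Agent.P284.H894
  Vale.Agent.P284.H894.V Vale.Agent.P284.H639.V

variable {n : ℕ} {Γ : Type} [Group Γ] {C : Coc n Γ} {P : PU C} {K : KM C}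
  {f h : Γ → C.I → Cm n → ℝ}

/-- a smooth function, well defined up to local constants -/
structure Mv (C : Coc n Γ) (h : Γ → C.I → Cm n → ℝ) : Prop where
  smooth : ∀ γ a, ∀ z ∈ C.Ω a, ContDiffAt ℝ ∞ (h γ a) z
  jump : ∀ γ a b, ∀ z ∈ C.O a b, ∃ c : ℝ, ∀ᶠ y in 𝓝 z,
    h γ a y = h (γ * C.κ a b z) b (C.T a b y) + c

theorem mv_of_tst (hf : IsTst C f) : Mv C f where
  smooth := hf.smooth
  jump γ a b z hz := ⟨0, by
    filter_upwards [compat_ev hf γ hz] with y hy
    rw [hy, add_zero]⟩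

theorem Mv.add (hf : Mv C f) (hh' : Mv C h) : Mv C (fun γ a z => f γ a z + h γ a z) where
  smooth γ a z hz := (hf.smooth γ a z hz).add (hh'.smooth γ a z hz)
  jump γ a b z hz := by
    obtain ⟨c, hc⟩ := hf.jump γ a b z hz
    obtain ⟨d, hd⟩ := hh'.jump γ a b z hz
    refine ⟨c + d, ?_⟩
    filter_upwards [hc, hd] with y h1 h2
    rw [h1, h2]; ring

theorem T_diff_ev (C : Coc n Γ) {a b : C.I} {z : Cm n} (hz : z ∈ C.O a b) :
    ∀ᶠ y in 𝓝 z, DifferentiableAt ℂ (C.T a b) y := by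
  filter_upwards [(C.O_open a b).mem_nhds hz] with y hy
  exact (C.T_holo a b).differentiableAt ((C.O_open a b).mem_nhds hy)

theorem trans_mv (hp : VPStmt) (K : KM C) (hf : Mv C f) (hh' : Mv C h) (γ : Γ) {a b : C.I}
    {z : Cm n} (hz : z ∈ C.O a b) :
    lap (K.w a) (f γ a) z = lap (K.w b) (f (γ * C.κ a b z) b) (C.T a b z) ∧
      gr (K.w a) (f γ a) (h γ a) z =
        gr (K.w b) (f (γ * C.κ a b z) b) (h (γ * C.κ a b z) b) (C.T a b z) ∧
      hh (K.w a) (f γ a) (h γ a) z =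
        hh (K.w b) (f (γ * C.κ a b z) b) (h (γ * C.κ a b z) b) (C.T a b z) := by
  obtain ⟨c, hc⟩ := hf.jump γ a b z hz
  obtain ⟨d, hd⟩ := hh'.jump γ a b z hz
  have sf := hf.smooth (γ * C.κ a b z) b _ (T_mem_Ω C hz)
  have sh := hh'.smooth (γ * C.κ a b z) b _ (T_mem_Ω C hz)
  obtain ⟨h1, h2, h3, -⟩ := hp.trans (K.w a) (K.w b) (f γ a) (h γ a)
    (fun y => f (γ * C.κ a b z) b y + c)
    (fun y => h (γ * C.κ a b z) b y + d) (C.T a b) z (T_diff_ev C hz)
    ((K.ku a).pos z (O_sub_Ω C hz)) ((K.ku b).pos _ (T_mem_Ω C hz)) (K.change a b z hz)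
    (sf.add contDiffAt_const) (sh.add contDiffAt_const) hc hd
  rw [lap_add_const sf] at h1
  rw [gr_add_const] at h2
  rw [hh_add_const sf sh] at h3
  exact ⟨h1, h2, h3⟩

/-- the density `wd` is invariant -/
theorem trans_wd (hp : VPStmt) (P : PU C) (K : KM C) (hh' : Mv C h) (d : C.I) (γ : Γ) {a b : C.I}
    {z : Cm n} (hz : z ∈ C.O a b) :
    wd (K.w a) (P.χ d a) (h γ a) z =
      wd (K.w b) (P.χ d b) (h (γ * C.κ a b z) b) (C.T a b z) := by
  obtain ⟨c, hc⟩ := hh'.jump γ a b z hz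
  have sa := hh'.smooth γ a z (O_sub_Ω C hz)
  have sh := hh'.smooth (γ * C.κ a b z) b _ (T_mem_Ω C hz)
  have sχ := P.smooth d b _ (T_mem_Ω C hz)
  set k : Cm n → ℝ := h (γ * C.κ a b z) b with hk
  have e1 : wd (K.w a) (P.χ d a) (h γ a) z = wd (K.w a) (P.χ d a) (fun y => k (C.T a b y)) z := by
    have e2 : (fun y => h γ a y + (-c)) =ᶠ[𝓝 z] fun y => k (C.T a b y) := by
      filter_upwards [hc] with y hy
      rw [hy, hk]; ring
    rw [← wd_shift (P.smooth d a z (O_sub_Ω C hz)) sa (-c)]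
    exact wd_congr (EventuallyEq.refl _ _) e2
  rw [e1]
  have e3 : ∀ᶠ y in 𝓝 z, P.χ d a y = P.χ d b (C.T a b y) := by
    filter_upwards [(C.O_open a b).mem_nhds hz] with y hy
    exact P.compat d a b y hy
  have key : ∀ f' h' : Cm n → ℝ, ContDiffAt ℝ ∞ f' (C.T a b z) → ContDiffAt ℝ ∞ h' (C.T a b z) →
      ∀ f₁ h₁ : Cm n → ℝ, (∀ᶠ y in 𝓝 z, f₁ y = f' (C.T a b y)) →
      (∀ᶠ y in 𝓝 z, h₁ y = h' (C.T a b y)) →
      qd (K.w a) f₁ h₁ z = qd (K.w b) f' h' (C.T a b z) := by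
    intro f' h' s1 s2 f₁ h₁ v1 v2
    obtain ⟨h1, h2, h3, -⟩ := hp.trans (K.w a) (K.w b) f₁ h₁ f' h' (C.T a b) z (T_diff_ev C hz)
      ((K.ku a).pos z (O_sub_Ω C hz)) ((K.ku b).pos _ (T_mem_Ω C hz)) (K.change a b z hz)
      s1 s2 v1 v2
    obtain ⟨h1', -⟩ := hp.trans (K.w a) (K.w b) h₁ h₁ h' h' (C.T a b) z (T_diff_ev C hz)
      ((K.ku a).pos z (O_sub_Ω C hz)) ((K.ku b).pos _ (T_mem_Ω C hz)) (K.change a b z hz)
      s2 s2 v2 v2
    rw [qd, qd, h1, h3, h1']
  have e0 : ∀ᶠ y in 𝓝 z, (fun y => k (C.T a b y)) y = k (C.T a b y) :=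
    Eventually.of_forall fun y => rfl
  unfold wd
  rw [key k k sh sh _ _ e0 e0,
    key (fun y => P.χ d b y * k y) k (sχ.mul sh) sh _ _
      (by filter_upwards [e3] with y hy; rw [hy]) e0,
    key (P.χ d b) (fun y => k y ^ 2) sχ (sh.pow 2) _ _ e3 (Eventually.of_forall fun y => rfl),
    e3.self_of_nhds]

section fin
variable [Finite Γ]

theorem fam_of {G : Γ → C.I → Cm n → ℝ} (hc : ∀ γ a, ∀ z ∈ C.Ω a, ContDiffAt ℝ ∞ (G γ a) z)
    (hG : ∀ γ a b, ∀ z ∈ C.O a b, G γ a z = G (γ * C.κ a b z) b (C.T a b z)) : Fam C G where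
  cont γ a z hz := (hc γ a z hz).continuousAt.continuousWithinAt
  compat := hG
  fin := Set.toFinite _

theorem isTst_Lap_mv (hp : VPStmt) (K : KM C) (hf : Mv C f) : IsTst C (Lap K f) where
  smooth γ a z hz := (smooth_lap (K.ku a) hz (hf.smooth γ a z hz)).congr_of_eventuallyEq (Lap_ev K γ hz)
  compat γ a b z hz := by
    rw [Lap_mem K γ (O_sub_Ω C hz), Lap_mem K _ (T_mem_Ω C hz)]
    exact (trans_mv hp K hf hf γ hz).1
  fin := Set.toFinite _
  out γ a z hz := indicator_of_notMem hz _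

theorem fam_Gr_mv (hp : VPStmt) (K : KM C) (hf : Mv C f) (hh' : Mv C h) : Fam C (Gr K f h) :=
  fam_of (fun γ a z hz => smooth_gr (K.ku a) hz (hf.smooth γ a z hz) (hh'.smooth γ a z hz))
    fun γ _ _ _ hz => (trans_mv hp K hf hh' γ hz).2.1

theorem fam_Hh_mv (hp : VPStmt) (K : KM C) (hf : Mv C f) (hh' : Mv C h) : Fam C (Hh K f h) :=
  fam_of (fun γ a z hz => smooth_hh (K.ku a) hz (hf.smooth γ a z hz) (hh'.smooth γ a z hz))
    fun γ _ _ _ hz => (trans_mv hp K hf hh' γ hz).2.2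

/-- integration by parts, one piece -/
theorem ibp_cut_mv (h1 : V1Stmt) (hp : VPStmt) (h3 : V3Stmt) (P : PU C) (K : KM C)
    (hf : IsTst C f) (hh' : Mv C h) (b : C.I) :
    Int P K (fun γ a z => Lap K h γ a z * cut P b f γ a z) = -Int P K (Gr K (cut P b f) h) := by
  have hc := isTst_cut P b hf
  rw [h3.piece C P K (fun γ a z => Lap K h γ a z * cut P b f γ a z) b (P.K b)
      (isTst_fam (isTst_mul (isTst_Lap_mv hp K hh') hc)) (P.compactK b) (P.K_sub b) ?_,
    h3.piece C P K (Gr K (cut P b f) h) b (P.K b) (fam_Gr_mv hp K (mv_of_tst hc) hh')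
      (P.compactK b) (P.K_sub b) ?_, ← tsum_neg]
  · congr 1
    ext γ
    have h2 := (h1 n (C.V b) (K.w b) (KU_V K b) (cut P b f γ b) (h γ b) (TU_cut P b hf γ)
      (fun z hz => hh'.smooth γ b z (V_sub_Ω C b hz))).2
    rw [← show (∫ z in C.V b, Gr K (cut P b f) h γ b z * vol (K.w b) z) =
      ∫ z in C.V b, gr (K.w b) (cut P b f γ b) (h γ b) z * vol (K.w b) z from rfl] at h2
    rw [← h2]
    refine setIntegral_congr_fun measurableSet_ball fun z hz => ?_
    simp only [Lap_mem K γ (V_sub_Ω C b hz)]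
  · intro γ a z hz hne
    by_contra hn
    exact hne (gr_eq_zero (cut_ev P b f γ hz hn))
  · intro γ a z hz hne
    by_contra hn
    apply hne
    have := (cut_ev P b f γ hz hn).self_of_nhds
    simp only [this, mul_zero]

/-- **Integration by parts** for a multivalued function `h`. -/
theorem ibp_mv (h1 : V1Stmt) (hp : VPStmt) (h3 : V3Stmt) (P : PU C) (K : KM C)
    (hf : IsTst C f) (hh' : Mv C h) :
    Int P K (fun γ a z => Lap K h γ a z * f γ a z) = -Int P K (Gr K f h) := by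
  have s1 : Int P K (fun γ a z => Lap K h γ a z * f γ a z) =
      ∑ b, Int P K (fun γ a z => Lap K h γ a z * cut P b f γ a z) := by
    rw [← Int_sum h3 Finset.univ fun b _ =>
      isTst_fam (isTst_mul (isTst_Lap_mv hp K hh') (isTst_cut P b hf))]
    refine Int_congr P K fun γ a z hz => ?_
    have hz' := V_sub_Ω C a hz
    rw [← Finset.mul_sum, (cut_sum P f γ hz').self_of_nhds]
  have s2 : Int P K (Gr K f h) = ∑ b, Int P K (Gr K (cut P b f) h) := by
    rw [← Int_sum h3 Finset.univ fun b _ =>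
      fam_Gr_mv hp K (mv_of_tst (isTst_cut P b hf)) hh']
    refine Int_congr P K fun γ a z hz => ?_
    have hz' := V_sub_Ω C a hz
    simp only [Gr]
    rw [gr_congr (cut_sum P f γ hz') (EventuallyEq.refl _ _),
      gr_sum Finset.univ fun b _ => (isTst_cut P b hf).smooth γ a z hz']
  rw [s1, s2, ← Finset.sum_neg_distrib]
  exact Finset.sum_congr rfl fun b _ => ibp_cut_mv h1 hp h3 P K hf hh' b

/-! ### The Kähler identity -/

/-- the density number `b` -/
def wD (P : PU C) (K : KM C) (h : Γ → C.I → Cm n → ℝ) (b : C.I) (γ : Γ) (a : C.I) (z : Cm n) : ℝ :=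
  wd (K.w a) (P.χ b a) (h γ a) z

theorem fam_wD (hp : VPStmt) (P : PU C) (K : KM C) (hh' : Mv C h) (b : C.I) : Fam C (wD P K h b) :=
  fam_of (fun γ a z hz => smooth_wd (K.ku a) hz (P.smooth b a z hz) (hh'.smooth γ a z hz))
    fun γ _ _ _ hz => trans_wd hp P K hh' b γ hz

omit [Finite Γ] in
theorem chi_ev (P : PU C) (b : C.I) {a : C.I} {z : Cm n}
    (hz : z ∈ C.Ω a) (hn : ¬ (z ∈ C.O a b ∧ C.T a b z ∈ P.K b)) :
    P.χ b a =ᶠ[𝓝 z] fun _ => 0 := by
  filter_upwards [C.closed a b (P.K b) (P.compactK b) ((P.K_sub b).trans (V_sub_Ω C b)) z hz hn,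
    (isOpen_Ω C a).mem_nhds hz] with y hy hy'
  by_contra h0
  exact hy (P.supp b a y hy' h0)

omit [Finite Γ] in
theorem chi_supp (P : PU C) (b : C.I) {z : Cm n} (h1 : z ∈ C.Ω b) (h2 : P.χ b b z ≠ 0) :
    z ∈ P.K b := by
  have h3 := (P.supp b b z h1 h2).2
  rwa [C.T_self b z (mem_O_self C h1)] at h3

omit [Finite Γ] in
/-- functions on `Ω b` cut off by `χ_b` -/
theorem TU_chi (P : PU C) (b : C.I) {g : Cm n → ℝ} (hg : ∀ z ∈ C.Ω b, ContDiffAt ℝ ∞ g z) :
    TU (C.V b) ((C.Ω b).indicator fun y => P.χ b b y * g y) := by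
  have hs : tsupport ((C.Ω b).indicator fun y => P.χ b b y * g y) ⊆ P.K b := by
    refine closure_minimal (fun z hz => ?_) (P.compactK b).isClosed
    have h1 : z ∈ C.Ω b := by
      by_contra hn
      exact hz (indicator_of_notMem hn _)
    refine chi_supp P b h1 fun h0 => hz ?_
    rw [indicator_of_mem h1, h0, zero_mul]
  refine ⟨?_, (P.compactK b).of_isClosed_subset (isClosed_tsupport _) hs, hs.trans (P.K_sub b)⟩
  rw [contDiff_iff_contDiffAt]
  intro z
  by_cases hz : z ∈ P.K b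
  · have hz' := V_sub_Ω C b (P.K_sub b hz)
    refine ((P.smooth b b z hz').mul (hg z hz')).congr_of_eventuallyEq ?_
    filter_upwards [(isOpen_Ω C b).mem_nhds hz'] with y hy
    exact indicator_of_mem hy _
  · have : ((C.Ω b).indicator fun y => P.χ b b y * g y) =ᶠ[𝓝 z] fun _ => 0 := by
      filter_upwards [(isClosed_tsupport _).isOpen_compl.mem_nhds
        (fun hz' => hz (hs hz') : z ∈ (tsupport ((C.Ω b).indicator
          fun y => P.χ b b y * g y))ᶜ)] with y hy
      exact image_eq_zero_of_notMem_tsupport hy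
    exact contDiffAt_const.congr_of_eventuallyEq this

omit [Finite Γ] in
theorem integrable_V (C : Coc n Γ) (b : C.I) {g : Cm n → ℝ}
    (hg : ∀ z ∈ C.Ω b, ContDiffAt ℝ ∞ g z) : IntegrableOn g (C.V b) := by
  have h1 : closedBall (C.c b) (3 * C.r b) ⊆ C.Ω b :=
    closedBall_subset_ball (by linarith [C.r_pos b])
  have h2 : ContinuousOn g (closedBall (C.c b) (3 * C.r b)) := fun z hz =>
    (hg z (h1 hz)).continuousAt.continuousWithinAt
  exact (h2.integrableOn_compact (isCompact_closedBall _ _)).mono_set ball_subset_closedBall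

omit [Finite Γ] in
theorem qd_zero (h2 : V2Stmt) (K : KM C) (b : C.I) {f g h : Cm n → ℝ} (hf : TU (C.V b) f)
    (e : ∀ z ∈ C.Ω b, g z = f z)
    (hh' : ∀ z ∈ C.Ω b, ContDiffAt ℝ ∞ h z) :
    ∫ z in C.V b, qd (K.w b) g h z * vol (K.w b) z = 0 := by
  rw [← h2 n (C.V b) (K.w b) (KU_V K b) f h hf fun z hz => hh' z (V_sub_Ω C b hz)]
  refine setIntegral_congr_fun measurableSet_ball fun z hz => ?_
  have hz' := V_sub_Ω C b hz
  have e1 : g =ᶠ[𝓝 z] f := by
    filter_upwards [(isOpen_Ω C b).mem_nhds hz'] with y hy using e y hy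
  simp only [qd, lap_congr e1, hh_congr e1 (EventuallyEq.refl _ h)]

omit [Finite Γ] in
theorem int_wD (h2 : V2Stmt) (P : PU C) (K : KM C) (hh' : Mv C h) (b : C.I) (γ : Γ) :
    ∫ z in C.V b, wD P K h b γ b z * vol (K.w b) z =
      ∫ z in C.V b, P.χ b b z * qd (K.w b) (h γ b) (h γ b) z * vol (K.w b) z := by
  have sh := hh'.smooth γ b
  have sχ := P.smooth b b
  have sv : ∀ z ∈ C.Ω b, ContDiffAt ℝ ∞ (vol (K.w b)) z := fun z hz => smooth_vol (K.ku b) hz
  have i1 : IntegrableOn (fun z => P.χ b b z * qd (K.w b) (h γ b) (h γ b) z * vol (K.w b) z)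
      (C.V b) := integrable_V C b fun z hz =>
    ((sχ z hz).mul (smooth_qd (K.ku b) hz (sh z hz) (sh z hz))).mul (sv z hz)
  have i2 : IntegrableOn (fun z => qd (K.w b) (fun y => P.χ b b y * h γ b y) (h γ b) z *
      vol (K.w b) z) (C.V b) := integrable_V C b fun z hz =>
    (smooth_qd (K.ku b) hz ((sχ z hz).mul (sh z hz)) (sh z hz)).mul (sv z hz)
  have i3 : IntegrableOn (fun z => (1 / 2 : ℝ) * (qd (K.w b) (P.χ b b) (fun y => h γ b y ^ 2) z *
      vol (K.w b) z)) (C.V b) := integrable_V C b fun z hz =>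
    contDiffAt_const.mul ((smooth_qd (K.ku b) hz (sχ z hz) ((sh z hz).pow 2)).mul (sv z hz))
  have e1 : ∀ z, wD P K h b γ b z * vol (K.w b) z =
      (P.χ b b z * qd (K.w b) (h γ b) (h γ b) z * vol (K.w b) z -
      qd (K.w b) (fun y => P.χ b b y * h γ b y) (h γ b) z * vol (K.w b) z) +
      (1 / 2 : ℝ) * (qd (K.w b) (P.χ b b) (fun y => h γ b y ^ 2) z * vol (K.w b) z) := by
    intro z
    simp only [wD, wd]
    ring
  have i12 : IntegrableOn (fun z => P.χ b b z * qd (K.w b) (h γ b) (h γ b) z * vol (K.w b) z -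
      qd (K.w b) (fun y => P.χ b b y * h γ b y) (h γ b) z * vol (K.w b) z) (C.V b) := i1.sub i2
  simp only [e1]
  rw [integral_add i12 i3, integral_sub i1 i2, integral_const_mul,
    qd_zero h2 K b (TU_chi P b sh) (fun z hz => (indicator_of_mem hz _).symm) sh,
    qd_zero h2 K b (TU_chi P b (g := fun _ => 1) fun z _ => contDiffAt_const)
      (fun z hz => by rw [indicator_of_mem hz, mul_one]) fun z hz => (sh z hz).pow 2]
  ring

/-- **Kähler identity** for a multivalued function `h`. -/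
theorem kahler_mv (h2 : V2Stmt) (hp : VPStmt) (h3 : V3Stmt) (P : PU C) (K : KM C)
    (hh' : Mv C h) :
    Int P K (fun γ a z => Lap K h γ a z * Lap K h γ a z) = Int P K (Hh K h h) := by
  classical
  have := Fintype.ofFinite Γ
  -- the sum of the densities
  have s1 : ∑ b, Int P K (wD P K h b) = 0 := by
    rw [← Int_sum h3 Finset.univ fun b _ => fam_wD hp P K hh' b, ← Int_zero P K]
    refine Int_congr P K fun γ a z hz => ?_
    have hz' := V_sub_Ω C a hz
    have e1 : (fun y => ∑ b, P.χ b a y) =ᶠ[𝓝 z] fun _ => 1 := by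
      filter_upwards [(isOpen_Ω C a).mem_nhds hz'] with y hy using P.sum_one a y hy
    simp only [wD]
    rw [← wd_sum Finset.univ (fun b _ => P.smooth b a z hz') (hh'.smooth γ a z hz'),
      wd_congr e1 (EventuallyEq.refl _ _), wd_one (hh'.smooth γ a z hz')]
  have s2 : ∀ b, Int P K (wD P K h b) =
      ∑ γ, ∫ z in C.V b, P.χ b b z * qd (K.w b) (h γ b) (h γ b) z * vol (K.w b) z := by
    intro b
    rw [h3.piece C P K (wD P K h b) b (P.K b) (fam_wD hp P K hh' b) (P.compactK b) (P.K_sub b) ?_,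
      tsum_fintype]
    · exact Finset.sum_congr rfl fun γ _ => int_wD h2 P K hh' b γ
    · intro γ a z hz hne
      by_contra hn
      exact hne (wd_eq_zero (chi_ev P b hz hn))
  have hL := isTst_Lap_mv hp K hh'
  have F1 : Fam C (fun γ a z => Lap K h γ a z * Lap K h γ a z) := isTst_fam (isTst_mul hL hL)
  have F2 := fam_Hh_mv hp K hh' hh'
  have h4 := h3.lin C P K _ _ 1 (-1) F1 F2
  have h5 : Int P K (fun γ a z => 1 * (Lap K h γ a z * Lap K h γ a z) +
      -1 * Hh K h h γ a z) = ∑ b, Int P K (wD P K h b) := by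
    simp only [s2]
    unfold Vale.Agent.P284.H894.V.Int
    rw [tsum_fintype, Finset.sum_comm]
    refine Finset.sum_congr rfl fun a _ => Finset.sum_congr rfl fun γ _ => ?_
    refine setIntegral_congr_fun measurableSet_ball fun z hz => ?_
    simp only [Lap_mem K γ (V_sub_Ω C a hz), Hh, qd]
    ring
  rw [h5, s1] at h4
  linarith

end fin

end Vale.Agent.P281.H125.KH
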