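import Vale.Agent.P281.H125.KH.Close
import Vale.Agent.P284.H35.V14B

/-!
# P281, project T-K, block C2K (helper125): the limit of almost pluriharmonic functions
-/

open scoped Manifold ContDiff Topology Pointwise ComplexConjugate ComplexOrder
open Filter Set Metric MeasureTheory

noncomputable section

namespace Vale.Agent.P281.H125.KH

open Vale.Agent.P272.K Vale.Agent.P284.H894 Vale.Agent.P284.H894.V Vale.Agent.P284.H35.V

variable {n : ℕ} {Γ : Type} [Group Γ] {C : Coc n Γ} {δ : ℝ} {η : Cm n → ℝ} {B C₁ : ℝ}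

/-- the sequence is eventually bounded on every ball -/
lemma ev_bdd0 (h12 : V12Stmt) (hM : MolP n δ η B) (hδ : ∀ a, 4 * δ ≤ C.r a)
    {v : ℕ → Γ → C.I → Cm n → ℝ} {ε : ℕ → ℝ} (hv : ∀ k, App0 C C₁ (ε k) (v k))
    {𝒰 : Filter ℕ} [𝒰.NeBot] (hε : Tendsto ε 𝒰 (𝓝 0)) (b₀ : C.I) (γ : Γ) (a : C.I) :
    ∃ M : ℝ, ∀ᶠ k in 𝒰, ∀ z ∈ ball (C.c a) (11 / 4 * C.r a),
      |mo η (v k γ a) z - mo η (v k 1 b₀) (C.c b₀)| ≤ M := by
  set L := √(B * C₁) with hL
  have hL0 : 0 ≤ L := Real.sqrt_nonneg _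
  have hball : ∀ (γ : Γ) (a : C.I) (k : ℕ) (y : Cm n), y ∈ ball (C.c a) (11 / 4 * C.r a) →
      ∀ z ∈ ball (C.c a) (11 / 4 * C.r a),
      |mo η (v k γ a) z - mo η (v k γ a) y| ≤ L * (2 * (11 / 4 * C.r a)) := by
    intro γ a k y hy z hz
    refine ((hv k).lip hM hδ γ a z hz y hy).trans (mul_le_mul_of_nonneg_left ?_ hL0)
    rw [← dist_eq_norm]
    have h1 := mem_ball.1 hy
    have h2 := mem_ball.1 hz
    have h3 := dist_triangle_right z y (C.c a)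
    linarith
  refine h12 n Γ C (fun γ a => ∃ M : ℝ, ∀ᶠ k in 𝒰, ∀ z ∈ ball (C.c a) (11 / 4 * C.r a),
      |mo η (v k γ a) z - mo η (v k 1 b₀) (C.c b₀)| ≤ M) ?_ 1 b₀ γ a ?_
  · rintro γ a b z hz h1 h2 ⟨M, hMM⟩
    obtain ⟨ε₀, hε₀, hcl⟩ := close hM hδ C₁ hz h1 h2 one_pos
    refine ⟨M + 1 + L * (2 * (11 / 4 * C.r b)), ?_⟩
    filter_upwards [hMM, hε.eventually (ge_mem_nhds hε₀)] with k hk hk2 y hy
    have e1 := hk z (ball_subset_ball (by linarith [C.r_pos a]) h1)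
    have e2 := hcl (ε k) hk2 (v k) (hv k) γ
    have e3 := hball (γ * C.κ a b z) b k (C.T a b z)
      (ball_subset_ball (by linarith [C.r_pos b]) h2) y hy
    rw [abs_le] at e1 e2 e3 ⊢
    constructor <;> linarith
  · refine ⟨L * (2 * (11 / 4 * C.r b₀)), Eventually.of_forall fun k z hz => ?_⟩
    exact hball 1 b₀ k (C.c b₀) (mem_ball_self (by linarith [C.r_pos b₀])) z hz

/-- A pluriharmonic function with periods `χ`, on the balls of radius `2 r`. -/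
structure PH (C : Coc n Γ) (χ : Γ → ℝ) (u : Γ → C.I → Cm n → ℝ) : Prop where
  smooth : ∀ γ a, ∀ z ∈ ball (C.c a) (2 * C.r a), ContDiffAt ℝ ∞ (u γ a) z
  hess : ∀ γ a, ∀ z ∈ ball (C.c a) (2 * C.r a), cHess (u γ a) z = 0
  compat : ∀ γ a b z, z ∈ C.O a b → z ∈ ball (C.c a) (2 * C.r a) →
    C.T a b z ∈ ball (C.c b) (2 * C.r b) → u γ a z = u (γ * C.κ a b z) b (C.T a b z)
  add : ∀ γ a, ∀ z ∈ ball (C.c a) (2 * C.r a), u γ a z = χ γ + u 1 a z

theorem exists_limit (h12 : V12Stmt) (hδ0 : 0 < δ) (hδ : ∀ a, 4 * δ ≤ C.r a)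
    (hM : MolP n δ η B) {χ : Γ → ℝ} {v : ℕ → Γ → C.I → Cm n → ℝ} {ε : ℕ → ℝ}
    (hv : ∀ k, App0 C C₁ (ε k) (v k)) (hεt : Tendsto ε atTop (𝓝 0))
    (hχ : ∀ k γ a z, v k γ a z = χ γ + v k 1 a z) : ∃ u, PH C χ u := by
  classical
  set 𝒰 : Ultrafilter ℕ := hyperfilter ℕ with h𝒰
  have h𝒰top : (𝒰 : Filter ℕ) ≤ atTop := Nat.hyperfilter_le_atTop
  have hε : Tendsto ε (𝒰 : Filter ℕ) (𝓝 0) := hεt.mono_left h𝒰top
  set b₀ : C.I := Classical.arbitrary C.I with hb₀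
  set L := √(B * C₁) with hL
  have hL0 : 0 ≤ L := Real.sqrt_nonneg _
  set m : ℕ → Γ → C.I → Cm n → ℝ := fun k γ a z =>
    mo η (v k γ a) z - mo η (v k 1 b₀) (C.c b₀) with hm
  -- pointwise limits
  have hlim0 : ∀ γ a z, ∃ x : ℝ, z ∈ ball (C.c a) (11 / 4 * C.r a) →
      Tendsto (fun k => m k γ a z) (𝒰 : Filter ℕ) (𝓝 x) := by
    intro γ a z
    by_cases hz : z ∈ ball (C.c a) (11 / 4 * C.r a)
    · obtain ⟨M, hMM⟩ := ev_bdd0 h12 hM hδ hv hε b₀ γ a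
      have h2 : ∀ᶠ k in (𝒰 : Filter ℕ), m k γ a z ∈ Icc (-M) M := by
        filter_upwards [hMM] with k hk
        exact abs_le.1 (hk z hz)
      obtain ⟨x, -, hx⟩ := isCompact_Icc.ultrafilter_le_nhds (𝒰.map fun k => m k γ a z)
        (le_principal_iff.2 h2)
      exact ⟨x, fun _ => hx⟩
    · exact ⟨0, fun h => absurd h hz⟩
  choose Φ hΦ using hlim0
  -- properties of the sequence
  have hs : ∀ k γ a, ∀ z ∈ ball (C.c a) (11 / 4 * C.r a), ContDiffAt ℝ ∞ (m k γ a) z :=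
    fun k γ a z hz => ((hv k).smooth_mo hM hδ γ a z hz).sub contDiffAt_const
  have hlip : ∀ k γ a, ∀ z ∈ ball (C.c a) (11 / 4 * C.r a),
      ∀ z' ∈ ball (C.c a) (11 / 4 * C.r a), |m k γ a z - m k γ a z'| ≤ L * ‖z - z'‖ := by
    intro k γ a z hz z' hz'
    have := (hv k).lip hM hδ γ a z hz z' hz'
    simpa [hm] using this
  have hD2 : ∀ k γ a, ∀ z ∈ ball (C.c a) (11 / 4 * C.r a),
      D2 (m k γ a) z ≤ B * ε k := by
    intro k γ a z hz
    have hr := C.r_pos a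
    have hd := hδ a
    have e1 : D2 (m k γ a) z = D2 (mo η (v k γ a)) z := D2_sub_const _
    rw [e1]
    have e2 := (hM.2.2.2.2.2 (C.c a) (11 / 4 * C.r a) (3 * C.r a) (by positivity) (by linarith) _
      ((hv k).cdOn γ a)).2.2.2.2.1 z hz
    exact e2.trans (mul_le_mul_of_nonneg_left ((hv k).d2 γ a) hM.1.le)
  have hBε : Tendsto (fun k : ℕ => B * ε k) (𝒰 : Filter ℕ) (𝓝 0) := by
    simpa using hε.const_mul B
  have hloc : ∀ γ a, _ := fun γ a => limit_local (C.r_pos a) hδ0 (hδ a) hM hL0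
    (fun k => hs k γ a) (fun k => hlip k γ a) (fun k => hD2 k γ a) hBε (fun z hz => hΦ γ a z hz)
  set U : Γ → C.I → Cm n → ℝ := fun γ a =>
    mo η ((closedBall (C.c a) (5 / 2 * C.r a)).indicator (Φ γ a)) with hU
  have hUs : ∀ γ a, ContDiff ℝ ∞ (U γ a) := fun γ a => (hloc γ a).1
  have hUΦ : ∀ γ a, ∀ z ∈ ball (C.c a) (9 / 4 * C.r a), U γ a z = Φ γ a z := fun γ a =>
    (hloc γ a).2.1
  have h2 : ∀ a, ∀ z ∈ ball (C.c a) (2 * C.r a), z ∈ ball (C.c a) (9 / 4 * C.r a) := fun a z hz =>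
    ball_subset_ball (by linarith [C.r_pos a]) hz
  have h3 : ∀ a, ∀ z ∈ ball (C.c a) (9 / 4 * C.r a), z ∈ ball (C.c a) (11 / 4 * C.r a) :=
    fun a z hz => ball_subset_ball (by linarith [C.r_pos a]) hz
  refine ⟨U, fun γ a z _ => (hUs γ a).contDiffAt, fun γ a z hz => (hloc γ a).2.2 z (h2 a z hz),
    ?_, ?_⟩
  · -- compatibility
    intro γ a b z hz hza hzb
    rw [hUΦ γ a z (h2 a z hza), hUΦ _ b _ (h2 b _ hzb)]
    have e1 := hΦ γ a z (h3 a z (h2 a z hza))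
    have e2 := hΦ (γ * C.κ a b z) b (C.T a b z) (h3 b _ (h2 b _ hzb))
    have e3 := (e1.sub e2).abs
    have e4 : |Φ γ a z - Φ (γ * C.κ a b z) b (C.T a b z)| ≤ 0 := by
      refine le_of_forall_pos_le_add fun κ hκ => ?_
      rw [zero_add]
      obtain ⟨ε₀, hε₀, hcl⟩ := close hM hδ C₁ hz hza hzb hκ
      refine le_of_tendsto e3 ?_
      filter_upwards [hε.eventually (ge_mem_nhds hε₀)] with k hk
      have := hcl _ hk (v k) (hv k) γ
      simpa [hm] using this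
    have e5 := abs_eq_zero.1 (le_antisymm e4 (abs_nonneg _))
    linarith
  · -- the periods
    intro γ a z hz
    rw [hUΦ γ a z (h2 a z hz), hUΦ 1 a z (h2 a z hz)]
    have hz' := h3 a z (h2 a z hz)
    have e1 := hΦ γ a z hz'
    have e2 := (hΦ 1 a z hz').const_add (χ γ)
    refine tendsto_nhds_unique e1 (e2.congr fun k => ?_)
    show χ γ + (mo η (v k 1 a) z - mo η (v k 1 b₀) (C.c b₀)) = _
    have hc : ContinuousOn (v k 1 a) (closedBall z δ) := by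
      intro y hy
      refine ((hv k).cdOn 1 a y ?_).continuousAt.continuousWithinAt
      rw [mem_closedBall] at hy ⊢
      rw [mem_ball] at hz
      have := hδ a
      have := C.r_pos a
      linarith [dist_triangle y z (C.c a)]
    have e3 : (v k γ a) = fun y => v k 1 a y - (-χ γ) := by
      funext y
      rw [hχ k γ a y]; ring
    have e4 : mo η (v k γ a) z = mo η (v k 1 a) z - (-χ γ) := by
      rw [e3]
      exact mo_sub_const hM.2.1.continuous hM.2.2.2.1 hM.2.2.2.2.1 hc (-χ γ)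
    show _ = mo η (v k γ a) z - mo η (v k 1 b₀) (C.c b₀)
    rw [e4]
    ring

end Vale.Agent.P281.H125.KH
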