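import Vale.Agent.P281.H125.KH.Approx
import Vale.Agent.P281.H125.KH.Lim
import Vale.Agent.P284.H287.V14A
import Vale.Agent.P284.H119.V1
import Vale.Agent.P284.H66.V2
import Vale.Agent.P284.H730.VP
import Vale.Agent.P284.H913.V3
import Vale.Agent.P284.H66.V4
import Vale.Agent.P284.H446.V7L
import Vale.Agent.P284.H359.V6
import Vale.Agent.P284.H513.V11
import Vale.Agent.P284.H894.V.V12
import Vale.Agent.P284.H35.ExPU

/-!
# P281, project T-K, block C2K (helper125): pluriharmonic functions with given periods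

`X` compact Kähler, `E → X` a connected covering with group `Γ`, `χ : Γ → ℝ` additive: there is a
pluriharmonic function `u` on `E` with `u (γ y) = χ γ + u y`. Version for the pieces `Coc`.
-/

open scoped Manifold ContDiff Topology Pointwise ComplexConjugate ComplexOrder
open Filter Set Metric MeasureTheory

noncomputable section

namespace Vale.Agent.P281.H125.KH

open Vale.Agent.P272.K Vale.Agent.P284.H248 Vale.Agent.P284.H894
  Vale.Agent.P284.H894.V Vale.Agent.P284.H639.V

variable {n : ℕ} {Γ : Type} [Group Γ]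

/-- the base: the same pieces, with the trivial group -/
def triv (C : Coc n Γ) : Coc n Unit where
  I := C.I
  fin := C.fin
  ne := C.ne
  c := C.c
  r := C.r
  r_pos := C.r_pos
  O := C.O
  T := C.T
  g := C.g
  κ := fun _ _ _ => ()
  O_open := C.O_open
  O_sub := C.O_sub
  O_self := C.O_self
  T_self := C.T_self
  g_self := C.g_self
  κ_self := fun _ _ _ => rfl
  T_mem := C.T_mem
  trans_mem := C.trans_mem
  trans_T := C.trans_T
  trans_g := C.trans_g
  trans_κ := fun _ _ _ _ _ _ => rfl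
  T_holo := C.T_holo
  g_holo := C.g_holo
  g_ne := C.g_ne
  κ_loc := fun _ _ _ _ => Eventually.of_forall fun _ => rfl
  cover := C.cover
  closed := C.closed
  N := {()}
  κ_mem := fun _ _ _ _ _ _ => Finset.mem_singleton_self _
  M := C.M
  M_one := C.M_one
  g_le := C.g_le
  T_le := C.T_le
  conn := by
    intro P hP γ a γ' b h
    have := C.conn (fun _ a => P () a) (fun _ a b z h1 h2 h3 h4 => hP () a b z h1 h2 h3 h4) 1 a 1 b h
    exact this

/-- the same partition of unity -/
def trivPU {C : Coc n Γ} (P : PU C) : PU (triv C) where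
  χ := P.χ
  smooth := P.smooth
  nonneg := P.nonneg
  sum_one := P.sum_one
  K := P.K
  compactK := P.compactK
  K_sub := P.K_sub
  supp := P.supp
  compat := P.compat

/-- the same metric -/
def trivKM {C : Coc n Γ} (K : KM C) : KM (triv C) where
  w := K.w
  ku := K.ku
  change := K.change
  lam := K.lam
  lam_pos := K.lam_pos
  Lam := K.Lam
  low := K.low
  up := K.up
  vol_up := K.vol_up
  vol_low := K.vol_low

section
variable {C : Coc n Γ} (P : PU C) (χ : Γ → ℝ)

/-- a smooth function with periods `χ` -/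
def f0 (a : C.I) (z : Cm n) : ℝ := ∑ b, P.χ b a z * χ (C.κ a b z)

theorem smooth_f0 (a : C.I) {z : Cm n} (hz : z ∈ C.Ω a) : ContDiffAt ℝ ∞ (f0 P χ a) z := by
  refine ContDiffAt.sum fun b _ => ?_
  by_cases h : z ∈ C.O a b ∧ C.T a b z ∈ P.K b
  · refine ((P.smooth b a z hz).mul (contDiffAt_const (c := χ (C.κ a b z)))).congr_of_eventuallyEq ?_
    filter_upwards [C.κ_loc a b z h.1] with y hy
    rw [hy]
  · refine contDiffAt_const (c := (0 : ℝ)).congr_of_eventuallyEq ?_
    filter_upwards [chi_ev P b hz h] with y hy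
    rw [hy, zero_mul]

variable {χ}

theorem f0_jump (hχ : ∀ x y, χ (x * y) = χ x + χ y) {a d : C.I} {z : Cm n} (hz : z ∈ C.O a d) :
    f0 P χ a z = χ (C.κ a d z) + f0 P χ d (C.T a d z) := by
  have hza := O_sub_Ω C hz
  have hzd := T_mem_Ω C hz
  have h1 : ∑ b, P.χ b d (C.T a d z) = 1 := P.sum_one d _ hzd
  have h2 : χ (C.κ a d z) = ∑ b, P.χ b d (C.T a d z) * χ (C.κ a d z) := by
    rw [← Finset.sum_mul, h1, one_mul]
  rw [f0, f0, h2, ← Finset.sum_add_distrib]
  refine Finset.sum_congr rfl fun b _ => ?_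
  rw [P.compat b a d z hz]
  by_cases h0 : P.χ b d (C.T a d z) = 0
  · rw [h0]; ring
  · have h3 := (P.supp b d _ hzd h0).1
    rw [C.trans_κ a d b z hz h3, hχ]
    ring

/-- the function on the base, with jumps -/
theorem mv_f0 (hχ : ∀ x y, χ (x * y) = χ x + χ y) :
    Mv (triv C) (fun _ a => f0 P χ a) where
  smooth _ a z hz := smooth_f0 P χ a hz
  jump _ a b z hz := by
    refine ⟨χ (C.κ a b z), ?_⟩
    filter_upwards [(C.O_open a b).mem_nhds hz, C.κ_loc a b z hz] with y hy hk
    show f0 P χ a y = f0 P χ b (C.T a b y) + χ (C.κ a b z)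
    rw [f0_jump P hχ hy, hk, add_comm]

end

theorem D1_add_const (f : Cm n → ℝ) (c : ℝ) (z : Cm n) : D1 (fun y => c + f y) z = D1 f z := by
  have : (fun y => c + f y) = fun y => f y + c := by funext y; ring
  rw [this]
  simp only [D1, dz_add_const]

theorem D2_add_const {f : Cm n → ℝ} {z : Cm n} (hf : ContDiffAt ℝ ∞ f z) (c : ℝ) :
    D2 (fun y => c + f y) z = D2 f z := by
  have : (fun y => c + f y) = fun y => f y + c := by funext y; ring
  rw [this]
  simp only [D2, cHess_add_const hf]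

/-- the approximating functions -/
theorem app0_of (C : Coc n Γ) (P : PU C) (K : KM C) {χ : Γ → ℝ}
    (hχ : ∀ x y, χ (x * y) = χ x + χ y) {v : Unit → C.I → Cm n → ℝ} (hv : IsTst (triv C) v)
    {A ε : ℝ} (hA : ∀ a, ∫ z in C.V a, D1 (fun z => f0 P χ a z + v () a z) z ≤ A)
    (hε : ∀ a, ∫ z in C.V a, D2 (fun z => f0 P χ a z + v () a z) z ≤ ε) :
    App0 C A ε (fun γ a z => χ γ + (f0 P χ a z + v () a z)) := by
  have hmv : Mv (triv C) (fun γ a z => f0 P χ a z + v γ a z) := (mv_f0 P hχ).add (mv_of_tst hv)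
  have hs : ∀ a, ∀ z ∈ C.Ω a, ContDiffAt ℝ ∞ (fun z => f0 P χ a z + v () a z) z :=
    fun a z hz => hmv.smooth () a z hz
  refine ⟨fun γ a z hz => contDiffAt_const.add (hs a z hz), ?_, ?_, ?_⟩
  · intro γ a b z hz
    have e1 := hv.compat () a b z hz
    have e2 : v () a z = v () b (C.T a b z) := e1
    rw [f0_jump P hχ hz, e2, hχ]
    ring
  · intro γ a
    refine le_of_eq_of_le ?_ (hA a)
    exact setIntegral_congr_fun measurableSet_ball fun z hz => D1_add_const _ _ z
  · intro γ a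
    refine le_of_eq_of_le ?_ (hε a)
    exact setIntegral_congr_fun measurableSet_ball fun z hz =>
      D2_add_const (hs a z (V_sub_Ω C a hz)) _

/-- the sequence of approximating functions -/
theorem exists_app (C : Coc n Γ) (P : PU C) (K : KM C) {χ : Γ → ℝ}
    (hχ : ∀ x y, χ (x * y) = χ x + χ y) :
    ∃ A : ℝ, ∀ ε : ℝ, 0 < ε → ∃ g : C.I → Cm n → ℝ, App0 C A ε (fun γ a z => χ γ + g a z) := by
  have hP : VPStmt := Vale.Agent.P284.H730.V.vpStmt
  have h1 : V1Stmt := Vale.Agent.P284.H119.V.v1Stmt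
  have h2 : V2Stmt := Vale.Agent.P284.H66.v2Stmt
  have h3 : V3Stmt := Vale.Agent.P284.H913.V.v3Stmt
  have h5 : V5Concl := v5Stmt h1 h2 hP h3
  have h7 : V7Concl := Vale.Agent.P284.H446.V.v7Stmt hP h3 Vale.Agent.P284.H66.v4Stmt h5
    Vale.Agent.P284.H359.V.v6Stmt
  obtain ⟨E₁, happ⟩ := approx hP h1 h2 h3 h7 (trivPU P) (trivKM K) (mv_f0 P hχ)
  have hl := K.lam_pos
  have hL := Vale.Agent.P284.H287.V.Lam_pos K
  have hLl : 0 ≤ K.Lam / K.lam := by positivity
  have hLl2 : 0 < K.Lam ^ 2 / K.lam := by positivity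
  refine ⟨K.Lam / K.lam * E₁, fun ε hε => ?_⟩
  obtain ⟨v, hv, hv1, hv2⟩ := happ (ε / (K.Lam ^ 2 / K.lam)) (by positivity)
  have hmv : Mv (triv C) (fun γ a z => f0 P χ a z + v γ a z) := (mv_f0 P hχ).add (mv_of_tst hv)
  refine ⟨fun a z => f0 P χ a z + v () a z, app0_of C P K hχ hv (fun a => ?_) fun a => ?_⟩
  · exact (d1_bound hP h3 (trivPU P) (trivKM K) hmv () a).trans
      (mul_le_mul_of_nonneg_left hv1 hLl)
  · refine (d2_bound hP h3 (trivPU P) (trivKM K) hmv () a).trans
      ((mul_le_mul_of_nonneg_left hv2.le hLl2.le).trans (le_of_eq ?_))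
    exact mul_div_cancel₀ ε hLl2.ne'

/-- **Pluriharmonic functions with given periods.** -/
theorem exists_PH (C : Coc n Γ) (K : KM C) (χ : Γ → ℝ) (hχ : ∀ x y, χ (x * y) = χ x + χ y) :
    ∃ u, PH C χ u := by
  obtain ⟨P⟩ := Vale.Agent.P284.H35.W.exists_PU C
  obtain ⟨A, happ⟩ := exists_app C P K hχ
  -- the mollifier
  obtain ⟨a₀, -, ha₀⟩ := Finset.exists_min_image Finset.univ C.r
    ⟨Classical.arbitrary C.I, Finset.mem_univ _⟩
  have hδ0 : 0 < C.r a₀ / 4 := by have := C.r_pos a₀; positivity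
  have hδ : ∀ a, 4 * (C.r a₀ / 4) ≤ C.r a := fun a => by
    have := ha₀ a (Finset.mem_univ a); linarith
  obtain ⟨η, B, hM⟩ := Vale.Agent.P284.H513.V.v11Stmt n _ hδ0
  choose g hg using fun k : ℕ => happ (1 / ((k : ℝ) + 1)) (by positivity)
  have hχ1 : χ 1 = 0 := by
    have := hχ 1 1
    rw [mul_one] at this
    linarith
  exact exists_limit (v := fun k γ a z => χ γ + g k a z) v12Stmt hδ0 hδ hM hg
    (tendsto_one_div_add_atTop_nhds_zero_nat (𝕜 := ℝ))
    (fun k γ a z => by rw [hχ1, zero_add])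

end Vale.Agent.P281.H125.KH
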