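import Vale.Agent.P281.H125.KH.Sh
import Vale.Agent.P284.H894.V.Spec
import Vale.Agent.P272.K.Inv.Compact
import Vale.Agent.P272.K.C2.Mat

/-!
# P281, project T-K, block C2K (helper125): from the sheets to `Coc`, `KM`
-/

open Set Filter Metric MeasureTheory Vale.Agent.P272.K
open scoped Topology ContDiff ComplexConjugate ComplexOrder

noncomputable section

namespace Vale.Agent.P281.H125.KH.Sh

open Vale.Agent.P281.H64.TK Vale.Agent.P284.H894 Vale.Agent.P284.H894.V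

variable {d : ℕ} {E Γ : Type} [TopologicalSpace E] [Group Γ] [MulAction Γ E] (S : Sheets d E Γ)

section top
variable {S}

theorem continuousAt_sigma (i : Fin S.N) {z : Cm d} (hz : z ∈ ball (0 : Cm d) 3) :
    ContinuousAt (S.σ i) z := (S.map_nhds i z hz).le

variable [ContinuousConstSMul Γ E]

theorem map_nhds_smul (γ : Γ) (i : Fin S.N) {z : Cm d} (hz : z ∈ ball (0 : Cm d) 3) :
    Filter.map (fun u => γ • S.σ i u) (𝓝 z) = 𝓝 (γ • S.σ i z) := by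
  have h1 : (fun u => γ • S.σ i u) = (Homeomorph.smul γ : E ≃ₜ E) ∘ S.σ i := rfl
  rw [h1, ← Filter.map_map, S.map_nhds i z hz]
  exact (Homeomorph.smul γ : E ≃ₜ E).map_nhds_eq _

/-- the orbit of the image of a compact set is closed -/
theorem isClosed_orb (i : Fin S.N) {K : Set (Cm d)} (hK : IsClosed K)
    (hK2 : K ⊆ closedBall 0 2) : IsClosed {e : E | ∃ (γ : Γ) (z : Cm d), z ∈ K ∧ γ • S.σ i z = e} := by
  rw [isClosed_iff_clusterPt]
  intro e he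
  have h1 : e ∈ {e : E | ∃ (γ : Γ) (z : Cm d), ‖z‖ ≤ 2 ∧ γ • S.σ i z = e} := by
    refine (S.closed i 2 (by norm_num)).closure_subset_iff.2 ?_ (mem_closure_iff_clusterPt.2 he)
    rintro e ⟨γ, z, hz, h⟩
    exact ⟨γ, z, mem_closedBall_zero_iff.1 (hK2 hz), h⟩
  obtain ⟨γ, w, hw, rfl⟩ := h1
  have hw3 : w ∈ ball (0 : Cm d) 3 := mem_ball_zero_iff.2 (by linarith)
  by_contra hc
  have hwK : w ∉ K := fun h => hc ⟨γ, w, h, rfl⟩
  have h2 : ∀ᶠ v in 𝓝 w, v ∉ K ∧ v ∈ ball (0 : Cm d) 3 := by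
    filter_upwards [hK.isOpen_compl.mem_nhds hwK, isOpen_ball.mem_nhds hw3] with v h3 h4
    exact ⟨h3, h4⟩
  have h5 : ∀ᶠ e in 𝓝 (γ • S.σ i w), ∃ v, (v ∉ K ∧ v ∈ ball (0 : Cm d) 3) ∧ γ • S.σ i v = e := by
    rw [← map_nhds_smul γ i hw3, eventually_map]
    filter_upwards [h2] with v hv
    exact ⟨v, hv, rfl⟩
  rw [clusterPt_principal_iff_frequently] at he
  obtain ⟨e', ⟨γ', w', hw', rfl⟩, v, hv, hve⟩ := (he.and_eventually h5).exists
  have h6 : (γ'⁻¹ * γ) • S.σ i v = S.σ i w' := by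
    rw [mul_smul, hve, smul_smul, inv_mul_cancel, one_smul]
  have hw'3 : w' ∈ ball (0 : Cm d) 3 :=
    mem_ball_zero_iff.2 (by linarith [mem_closedBall_zero_iff.1 (hK2 hw')])
  obtain ⟨-, h7⟩ := S.inj i v hv.2 w' hw'3 _ h6
  exact hv.1 (h7 ▸ hw')

end top

/-! ### The pieces -/

/-- finitely many centres -/
structure Ctr (d : ℕ) where
  t : Finset (Cm d)
  sub : ∀ c ∈ t, ‖c‖ ≤ 1
  cov : ∀ z : Cm d, ‖z‖ ≤ 1 → ∃ c ∈ t, z ∈ ball c (1 / 4)

theorem exists_ctr (d : ℕ) : Nonempty (Ctr d) := by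
  obtain ⟨t, ht, hfin, hcov⟩ := (isCompact_closedBall (0 : Cm d) 1).elim_finite_subcover_image
    (b := closedBall (0 : Cm d) 1) (c := fun c => ball c (1 / 4)) (fun c _ => isOpen_ball)
    (fun z hz => mem_iUnion₂.2 ⟨z, hz, mem_ball_self (by norm_num)⟩)
  refine ⟨⟨hfin.toFinset, fun c hc => ?_, fun z hz => ?_⟩⟩
  · exact mem_closedBall_zero_iff.1 (ht (hfin.mem_toFinset.1 hc))
  · obtain ⟨c, hc, hz'⟩ := mem_iUnion₂.1 (hcov (mem_closedBall_zero_iff.2 hz))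
    exact ⟨c, hfin.mem_toFinset.2 hc, hz'⟩

variable (R : Ctr d)

/-- the index set -/
abbrev Idx : Type := Fin S.N × {c // c ∈ R.t}

variable {S R}

/-- the centre -/
abbrev cen (a : Idx S R) : Cm d := (a.2 : Cm d)

theorem norm_cen (a : Idx S R) : ‖cen a‖ ≤ 1 := R.sub _ a.2.2

theorem ball_sub {a : Idx S R} {r : ℝ} (hr : r ≤ 1) {z : Cm d} (hz : z ∈ closedBall (cen a) r) :
    z ∈ closedBall (0 : Cm d) 2 := by
  rw [mem_closedBall_zero_iff]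
  rw [mem_closedBall, dist_eq_norm] at hz
  calc ‖z‖ = ‖(z - cen a) + cen a‖ := by rw [sub_add_cancel]
    _ ≤ ‖z - cen a‖ + ‖cen a‖ := norm_add_le _ _
    _ ≤ 2 := by linarith [norm_cen a]

theorem ball3 {a : Idx S R} {z : Cm d} (hz : z ∈ ball (cen a) (4 * (1 / 4))) :
    z ∈ ball (0 : Cm d) 3 := by
  have := ball_sub (a := a) (r := 4 * (1 / 4)) (by norm_num) (ball_subset_closedBall hz)
  rw [mem_closedBall_zero_iff] at this
  exact mem_ball_zero_iff.2 (by linarith)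

variable (a b : Idx S R)

/-- the overlap -/
def Ov : Set (Cm d) := {z | z ∈ ball (cen a) (4 * (1 / 4)) ∧ z ∈ U S a.1 b.1 ∧
  τ S a.1 b.1 z ∈ ball (cen b) (4 * (1 / 4))}

variable {a b} {e : Idx S R} {z : Cm d}

theorem isOpen_Ov : IsOpen (Ov a b) := by
  have h1 : Ov a b = ball (cen a) (4 * (1 / 4)) ∩ (U S a.1 b.1 ∩
      τ S a.1 b.1 ⁻¹' ball (cen b) (4 * (1 / 4))) := rfl
  rw [h1]
  exact isOpen_ball.inter (differentiableOn_tau.continuousOn.isOpen_inter_preimage isOpen_U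
    isOpen_ball)

theorem Ov_self : Ov a a = ball (cen a) (4 * (1 / 4)) := by
  ext z
  refine ⟨fun h => h.1, fun h => ⟨h, mem_U_self (ball3 h), ?_⟩⟩
  rw [(tau_self (ball3 h)).1]; exact h

theorem Ov_mem (hz : z ∈ Ov a b) : τ S a.1 b.1 z ∈ Ov b a := by
  obtain ⟨h1, h2, -⟩ := tau_mem_U hz.2.1
  exact ⟨hz.2.2, h1, by rw [h2]; exact hz.1⟩

theorem Ov_trans (hz : z ∈ Ov a b) (h : τ S a.1 b.1 z ∈ Ov b e) : z ∈ Ov a e := by
  obtain ⟨h1, h2, -⟩ := tau_trans hz.2.1 h.2.1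
  exact ⟨hz.1, h1, by rw [h2]; exact h.2.2⟩

theorem Ov_cover (hz : z ∈ ball (cen a) (4 * (1 / 4))) :
    ∃ b : Idx S R, z ∈ Ov a b ∧ τ S a.1 b.1 z ∈ ball (cen b) (1 / 4) := by
  obtain ⟨γ, i, w, hw, h⟩ := S.cover (S.σ a.1 z)
  obtain ⟨c, hc, hwc⟩ := R.cov w hw.le
  have hw3 : w ∈ ball (0 : Cm d) 3 := mem_ball_zero_iff.2 (by linarith)
  have h1 := tau_unique (ball3 hz) hw3 h.symm
  refine ⟨(i, ⟨c, hc⟩), ⟨hz, mem_U (ball3 hz) hw3 h.symm, ?_⟩, ?_⟩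
  · show τ S a.1 i z ∈ ball c (4 * (1 / 4))
    rw [h1.1]
    exact ball_subset_ball (by norm_num) hwc
  · show τ S a.1 i z ∈ ball c (1 / 4)
    rw [h1.1]; exact hwc

/-- membership through the orbit -/
theorem mem_Ov_iff {K : Set (Cm d)} (hK : K ⊆ ball (cen b) (4 * (1 / 4)))
    (hz : z ∈ ball (cen a) (4 * (1 / 4))) :
    (z ∈ Ov a b ∧ τ S a.1 b.1 z ∈ K) ↔ ∃ (γ : Γ) (w : Cm d), w ∈ K ∧ γ • S.σ b.1 w = S.σ a.1 z := by
  constructor
  · rintro ⟨h1, h2⟩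
    exact ⟨_, _, h2, (sigma_eq h1.2.1).symm⟩
  · rintro ⟨γ, w, hw, h⟩
    have hw3 := ball3 (hK hw)
    have h1 := tau_unique (ball3 hz) hw3 h.symm
    refine ⟨⟨hz, mem_U (ball3 hz) hw3 h.symm, ?_⟩, ?_⟩
    · rw [h1.1]; exact hK hw
    · rw [h1.1]; exact hw

section
variable [ContinuousConstSMul Γ E]

theorem Ov_closed {K : Set (Cm d)} (hK : IsCompact K) (hKs : K ⊆ ball (cen b) (4 * (1 / 4)))
    (hz : z ∈ ball (cen a) (4 * (1 / 4))) (h : ¬ (z ∈ Ov a b ∧ τ S a.1 b.1 z ∈ K)) :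
    ∀ᶠ z' in 𝓝 z, ¬ (z' ∈ Ov a b ∧ τ S a.1 b.1 z' ∈ K) := by
  have hcl := isClosed_orb (S := S) b.1 hK.isClosed fun w hw =>
    ball_sub (a := b) (r := 4 * (1 / 4)) (by norm_num) (ball_subset_closedBall (hKs hw))
  rw [mem_Ov_iff hKs hz] at h
  have h1 := (continuousAt_sigma a.1 (ball3 hz)).eventually (hcl.isOpen_compl.mem_nhds h)
  filter_upwards [h1, isOpen_ball.mem_nhds hz] with z' h2 h3
  rw [mem_Ov_iff hKs h3]
  exact h2

/-- the compact part of the overlap -/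
def cO (a b : Idx S R) : Set (Cm d) :=
  {z | z ∈ closedBall (cen a) (3 * (1 / 4)) ∧
    ∃ (γ : Γ) (w : Cm d), w ∈ closedBall (cen b) (3 * (1 / 4)) ∧ γ • S.σ b.1 w = S.σ a.1 z}

theorem cb_sub (b : Idx S R) : closedBall (cen b) (3 * (1 / 4)) ⊆ ball (cen b) (4 * (1 / 4)) :=
  closedBall_subset_ball (by norm_num)

theorem isCompact_cO : IsCompact (cO a b) := by
  refine (isCompact_closedBall (cen a) (3 * (1 / 4))).of_isClosed_subset ?_ fun z hz => hz.1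
  have hcl := isClosed_orb (S := S) b.1 (K := closedBall (cen b) (3 * (1 / 4))) isClosed_closedBall
    fun w hw => ball_sub (a := b) (r := 3 * (1 / 4)) (by norm_num) hw
  have hc : ContinuousOn (S.σ a.1) (closedBall (cen a) (3 * (1 / 4))) := fun z hz =>
    (continuousAt_sigma a.1 (ball3 (cb_sub a hz))).continuousWithinAt
  exact hc.preimage_isClosed_of_isClosed isClosed_closedBall hcl

theorem cO_sub : cO a b ⊆ Ov a b := fun _ hz =>
  ((mem_Ov_iff (cb_sub b) (cb_sub a hz.1)).2 hz.2).1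

omit [ContinuousConstSMul Γ E] in
theorem mem_cO (h1 : z ∈ Ov a b) (h2 : z ∈ ball (cen a) (3 * (1 / 4)))
    (h3 : τ S a.1 b.1 z ∈ ball (cen b) (3 * (1 / 4))) : z ∈ cO a b :=
  ⟨ball_subset_closedBall h2, _, _, ball_subset_closedBall h3, (sigma_eq h1.2.1).symm⟩

theorem finite_kappa : (κ S a.1 b.1 '' cO a b).Finite := by
  have h1 : ∀ z ∈ cO a b, {u | κ S a.1 b.1 u = κ S a.1 b.1 z} ∈ 𝓝 z := fun z hz =>
    kappa_local (cO_sub hz).2.1
  obtain ⟨s, hs, hc⟩ := isCompact_cO.elim_nhds_subcover _ h1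
  refine (s.finite_toSet.image (κ S a.1 b.1)).subset ?_
  rintro _ ⟨z, hz, rfl⟩
  obtain ⟨x, hx, hzx⟩ := mem_iUnion₂.1 (hc hz)
  exact ⟨x, hx, hzx.symm⟩

theorem exists_bound_T : ∃ M : ℝ, ∀ a b : Idx S R, ∀ z ∈ cO a b, ‖fderiv ℂ (τ S a.1 b.1) z‖ ≤ M := by
  have h : ∀ p : Idx S R × Idx S R, ∃ M : ℝ, ∀ z ∈ cO p.1 p.2,
      ‖fderiv ℂ (τ S p.1.1 p.2.1) z‖ ≤ M := by
    intro p
    refine isCompact_cO.exists_bound_of_continuousOn fun z hz => ?_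
    exact (analyticAt_tau (cO_sub hz).2.1).fderiv.continuousAt.continuousWithinAt
  choose M hM using h
  obtain ⟨B, hB⟩ := (Set.finite_range M).bddAbove
  exact ⟨B, fun a b z hz => (hM (a, b) z hz).trans (hB ⟨(a, b), rfl⟩)⟩

omit [ContinuousConstSMul Γ E] in
/-- every point of `E` lies in a middle ball -/
theorem exists_piece (R : Ctr d) (x : E) : ∃ (γ : Γ) (a : Idx S R) (z : Cm d),
    z ∈ ball (cen a) (3 * (1 / 4)) ∧ γ • S.σ a.1 z = x := by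
  obtain ⟨γ, i, w, hw, h⟩ := S.cover x
  obtain ⟨c, hc, hwc⟩ := R.cov w hw.le
  exact ⟨γ, (i, ⟨c, hc⟩), w, ball_subset_ball (by norm_num) hwc, h⟩

theorem conn_aux [ConnectedSpace E] (Q : Γ → Idx S R → Prop)
    (hQ : ∀ γ a b z, z ∈ Ov a b → z ∈ ball (cen a) (3 * (1 / 4)) →
      τ S a.1 b.1 z ∈ ball (cen b) (3 * (1 / 4)) → Q γ a → Q (γ * κ S a.1 b.1 z) b)
    (γ : Γ) (a : Idx S R) (γ' : Γ) (b : Idx S R) (h : Q γ a) : Q γ' b := by
  -- the same point in two pieces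
  have key : ∀ (γ₁ : Γ) (a₁ : Idx S R) (z₁ : Cm d) (γ₂ : Γ) (a₂ : Idx S R) (z₂ : Cm d),
      z₁ ∈ ball (cen a₁) (3 * (1 / 4)) → z₂ ∈ ball (cen a₂) (3 * (1 / 4)) →
      γ₁ • S.σ a₁.1 z₁ = γ₂ • S.σ a₂.1 z₂ → Q γ₁ a₁ → Q γ₂ a₂ := by
    intro γ₁ a₁ z₁ γ₂ a₂ z₂ h1 h2 h3 h4
    have h1' : z₁ ∈ ball (cen a₁) (4 * (1 / 4)) := ball_subset_ball (by norm_num) h1
    have h2' : z₂ ∈ ball (cen a₂) (4 * (1 / 4)) := ball_subset_ball (by norm_num) h2
    have h5 : S.σ a₁.1 z₁ = (γ₁⁻¹ * γ₂) • S.σ a₂.1 z₂ := by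
      rw [mul_smul, ← h3, smul_smul, inv_mul_cancel, one_smul]
    obtain ⟨h6, h7⟩ := tau_unique (ball3 h1') (ball3 h2') h5
    have h8 := hQ γ₁ a₁ a₂ z₁ ⟨h1', mem_U (ball3 h1') (ball3 h2') h5, by rw [h6]; exact h2'⟩ h1
      (by rw [h6]; exact h2) h4
    rw [h7, mul_inv_cancel_left] at h8
    exact h8
  set A : Set E := {x | ∃ (γ : Γ) (a : Idx S R) (z : Cm d), z ∈ ball (cen a) (3 * (1 / 4)) ∧
    γ • S.σ a.1 z = x ∧ Q γ a} with hA
  have himg : ∀ (γ : Γ) (a : Idx S R) (z : Cm d), z ∈ ball (cen a) (3 * (1 / 4)) →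
      ∀ᶠ y in 𝓝 (γ • S.σ a.1 z), ∃ u ∈ ball (cen a) (3 * (1 / 4)), γ • S.σ a.1 u = y := by
    intro γ a z hz
    rw [← map_nhds_smul γ a.1 (ball3 (ball_subset_ball (by norm_num) hz)), eventually_map]
    filter_upwards [isOpen_ball.mem_nhds hz] with u hu
    exact ⟨u, hu, rfl⟩
  have hopen : IsOpen A := by
    rw [isOpen_iff_mem_nhds]
    rintro _ ⟨γ, a, z, hz, rfl, hq⟩
    filter_upwards [himg γ a z hz] with y hy
    obtain ⟨u, hu, rfl⟩ := hy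
    exact ⟨γ, a, u, hu, rfl, hq⟩
  have hclosed : IsOpen Aᶜ := by
    rw [isOpen_iff_mem_nhds]
    intro x hx
    obtain ⟨γ, a, z, hz, rfl⟩ := exists_piece (S := S) R x
    have hq : ¬ Q γ a := fun h => hx ⟨γ, a, z, hz, rfl, h⟩
    filter_upwards [himg γ a z hz] with y hy
    obtain ⟨u, hu, rfl⟩ := hy
    rintro ⟨γ', a', z', hz', h', hq'⟩
    exact hq (key γ' a' z' γ a u hz' hu h' hq')
  have hclopen : IsClopen A := ⟨⟨hclosed⟩, hopen⟩
  have hc : cen a ∈ ball (cen a) (3 * (1 / 4)) := mem_ball_self (by norm_num)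
  have hne : A.Nonempty := ⟨γ • S.σ a.1 (cen a), γ, a, cen a, hc, rfl, h⟩
  have huniv : A = univ := hclopen.eq_univ hne
  have hb : γ' • S.σ b.1 (cen b) ∈ A := by rw [huniv]; exact mem_univ _
  obtain ⟨γ'', a'', z'', hz'', h'', hq''⟩ := hb
  exact key γ'' a'' z'' γ' b (cen b) hz'' (mem_ball_self (by norm_num)) h'' hq''

open Classical in
/-- the pieces of the covering `E → E / Γ` -/
def mk [ConnectedSpace E] (S : Sheets d E Γ) (R : Ctr d) : Coc d Γ where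
  I := Idx S R
  fin := inferInstance
  ne := by
    obtain ⟨x⟩ : Nonempty E := inferInstance
    obtain ⟨γ, a, -⟩ := exists_piece (S := S) R x
    exact ⟨a⟩
  c := cen
  r _ := 1 / 4
  r_pos _ := by norm_num
  O := Ov
  T a b := τ S a.1 b.1
  g _ _ _ := 1
  κ a b := κ S a.1 b.1
  O_open _ _ := isOpen_Ov
  O_sub _ _ _ h := h.1
  O_self _ := Ov_self
  T_self _ _ hz := (tau_self (ball3 hz.1)).1
  g_self _ _ _ := rfl
  κ_self _ _ hz := (tau_self (ball3 hz.1)).2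
  T_mem _ _ _ hz := Ov_mem hz
  trans_mem _ _ _ _ hz h := Ov_trans hz h
  trans_T _ _ _ _ hz h := (tau_trans hz.2.1 h.2.1).2.1
  trans_g _ _ _ _ _ _ := (one_mul 1).symm
  trans_κ _ _ _ _ hz h := (tau_trans hz.2.1 h.2.1).2.2
  T_holo _ _ := differentiableOn_tau.mono fun _ h => h.2.1
  g_holo _ _ := differentiableOn_const 1
  g_ne _ _ _ _ := one_ne_zero
  κ_loc _ _ _ hz := kappa_local hz.2.1
  cover _ _ hz := Ov_cover hz
  closed _ _ _ hK hKs _ hz h := Ov_closed hK hKs hz h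
  N := (Set.finite_iUnion fun p : Idx S R × Idx S R =>
    finite_kappa (a := p.1) (b := p.2)).toFinset
  κ_mem a b z h1 h2 h3 := by
    rw [Set.Finite.mem_toFinset]
    exact mem_iUnion.2 ⟨(a, b), z, mem_cO h1 h2 h3, rfl⟩
  M := max 1 (exists_bound_T (S := S) (R := R)).choose
  M_one := le_max_left _ _
  g_le _ _ _ _ _ _ := by
    rw [norm_one]
    exact le_max_left _ _
  T_le a b z h1 h2 h3 := by
    exact ((exists_bound_T (S := S) (R := R)).choose_spec a b z (mem_cO h1 h2 h3)).trans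
      (le_max_right _ _)
  conn Q hQ γ a γ' b h := conn_aux Q hQ γ a γ' b h

end

end Vale.Agent.P281.H125.KH.Sh
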