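import Vale.Agent.P284.H639.V5

/-!
# P281, project T-K, block C2K (helper125): additive functions on a compact Kähler manifold

Smooth multivalued functions `h` (well defined up to constants) on the pieces of `Coc`:
integration by parts and the Kähler identity.
-/

open scoped Manifold ContDiff Topology Pointwise ComplexConjugate ComplexOrder
open Filter Set Metric MeasureTheory

noncomputable section

namespace Vale.Agent.P281.H125.KH

open Vale.Agent.P272.K Vale.Agent.P272.K.C2 Vale.Agent.P284.H248 Vale.Agent.P284.H894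
  Vale.Agent.P284.H894.V Vale.Agent.P284.H639.V

/-! ### Local operators -/

section loc
variable {n : ℕ} {w : Cm n → Matrix (Fin n) (Fin n) ℂ} {f g h k : Cm n → ℝ} {z : Cm n}

theorem cHess_add_const (hf : ContDiffAt ℝ ∞ f z) (c : ℝ) :
    cHess (fun y => f y + c) z = cHess f z := by
  have h1 := C2.cHess_add (hf.of_le two_le) (contDiffAt_const (c := c))
  rw [h1, C2.cHess_const, add_zero]

theorem lap_add_const (hf : ContDiffAt ℝ ∞ f z) (c : ℝ) :
    lap w (fun y => f y + c) z = lap w f z := by rw [lap, lap, cHess_add_const hf]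

theorem hh_add_const (hf : ContDiffAt ℝ ∞ f z) (hh' : ContDiffAt ℝ ∞ h z) (c d : ℝ) :
    hh w (fun y => f y + c) (fun y => h y + d) z = hh w f h z := by
  rw [hh, hh, cHess_add_const hf, cHess_add_const hh']

theorem dz_add_const (f : Cm n → ℝ) (c : ℝ) (j : Fin n) (z : Cm n) :
    dz j (fun y => ((f y + c : ℝ) : ℂ)) z = dz j (fun y => (f y : ℂ)) z := by
  have : (fun y => ((f y + c : ℝ) : ℂ)) = fun y => (f y : ℂ) + (c : ℂ) := by
    funext y; push_cast; rfl
  rw [this]
  unfold dz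
  rw [fderiv_add_const]

theorem dzb_add_const (f : Cm n → ℝ) (c : ℝ) (j : Fin n) (z : Cm n) :
    dzb j (fun y => ((f y + c : ℝ) : ℂ)) z = dzb j (fun y => (f y : ℂ)) z := by
  have : (fun y => ((f y + c : ℝ) : ℂ)) = fun y => (f y : ℂ) + (c : ℂ) := by
    funext y; push_cast; rfl
  rw [this]
  unfold dzb
  rw [fderiv_add_const]

theorem gr_add_const (f h : Cm n → ℝ) (c d : ℝ) (z : Cm n) :
    gr w (fun y => f y + c) (fun y => h y + d) z = gr w f h z := by
  simp only [gr, dz_add_const, dzb_add_const]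

theorem gr_add_const_right (f h : Cm n → ℝ) (d : ℝ) (z : Cm n) :
    gr w f (fun y => h y + d) z = gr w f h z := by
  simp only [gr, dzb_add_const]

/-- the polarised form `tr A tr B - tr (A B)` -/
def qm (w A B : Matrix (Fin n) (Fin n) ℂ) : ℝ :=
  (w⁻¹ * A).trace.re * (w⁻¹ * B).trace.re - (w⁻¹ * A * (w⁻¹ * B)).trace.re

theorem qm_add_left (w A A' B : Matrix (Fin n) (Fin n) ℂ) :
    qm w (A + A') B = qm w A B + qm w A' B := by
  simp only [qm, Matrix.mul_add, Matrix.add_mul, Matrix.trace_add, Complex.add_re]; ring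

theorem qm_add_right (w A B B' : Matrix (Fin n) (Fin n) ℂ) :
    qm w A (B + B') = qm w A B + qm w A B' := by
  simp only [qm, Matrix.mul_add, Matrix.trace_add, Complex.add_re]; ring

theorem qm_smul_left (w A B : Matrix (Fin n) (Fin n) ℂ) (c : ℝ) :
    qm w ((c : ℂ) • A) B = c * qm w A B := by
  simp only [qm, Matrix.mul_smul, Matrix.smul_mul, Matrix.trace_smul, smul_eq_mul,
    Complex.re_ofReal_mul]; ring

theorem qm_smul_right (w A B : Matrix (Fin n) (Fin n) ℂ) (c : ℝ) :
    qm w A ((c : ℂ) • B) = c * qm w A B := by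
  simp only [qm, Matrix.mul_smul, Matrix.trace_smul, smul_eq_mul,
    Complex.re_ofReal_mul]; ring

/-- `lap f lap h - hh f h` -/
def qd (w : Cm n → Matrix (Fin n) (Fin n) ℂ) (f h : Cm n → ℝ) (z : Cm n) : ℝ :=
  lap w f z * lap w h z - hh w f h z

theorem qd_eq : qd w f h z = qm (w z) (cHess f z) (cHess h z) := rfl

theorem cHess_const_mul' (c : ℝ) (hf : ContDiffAt ℝ ∞ f z) :
    cHess (fun y => c * f y) z = (c : ℂ) • cHess f z := by
  have := C2.cHess_const_mul c (hf.of_le two_le)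
  simpa using this

/-- the density whose integral is `∫ χ Q(h, h)`; it is linear in `χ` and does not see the constants
added to `h` -/
def wd (w : Cm n → Matrix (Fin n) (Fin n) ℂ) (χ h : Cm n → ℝ) (z : Cm n) : ℝ :=
  χ z * qd w h h z - qd w (fun y => χ y * h y) h z + qd w χ (fun y => h y ^ 2) z / 2

theorem wd_shift {χ : Cm n → ℝ} (hχ : ContDiffAt ℝ ∞ χ z) (hh' : ContDiffAt ℝ ∞ h z) (c : ℝ) :
    wd w χ (fun y => h y + c) z = wd w χ h z := by
  have e1 : cHess (fun y => χ y * (h y + c)) z =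
      cHess (fun y => χ y * h y) z + (c : ℂ) • cHess χ z := by
    have : (fun y => χ y * (h y + c)) = fun y => χ y * h y + c * χ y := by funext y; ring
    rw [this, C2.cHess_add ((hχ.mul hh').of_le two_le) ((contDiffAt_const.mul hχ).of_le two_le),
      cHess_const_mul' c hχ]
  have e2 : cHess (fun y => (h y + c) ^ 2) z =
      cHess (fun y => h y ^ 2) z + ((2 * c : ℝ) : ℂ) • cHess h z := by
    have : (fun y => (h y + c) ^ 2) = fun y => (h y ^ 2 + (2 * c) * h y) + c ^ 2 := by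
      funext y; ring
    rw [this, cHess_add_const ((hh'.pow 2).add (contDiffAt_const.mul hh')),
      C2.cHess_add ((hh'.pow 2).of_le two_le) ((contDiffAt_const.mul hh').of_le two_le),
      cHess_const_mul' (2 * c) hh']
  simp only [wd, qd_eq, e1, e2, cHess_add_const hh', qm_add_left, qm_add_right, qm_smul_left,
    qm_smul_right]
  ring

theorem wd_sum {ι : Type*} (s : Finset ι) {χ : ι → Cm n → ℝ}
    (hχ : ∀ b ∈ s, ContDiffAt ℝ ∞ (χ b) z) (hh' : ContDiffAt ℝ ∞ h z) :
    wd w (fun y => ∑ b ∈ s, χ b y) h z = ∑ b ∈ s, wd w (χ b) h z := by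
  classical
  have hq : ∀ (B : Matrix (Fin n) (Fin n) ℂ) (A : ι → Matrix (Fin n) (Fin n) ℂ),
      qm (w z) (∑ b ∈ s, A b) B = ∑ b ∈ s, qm (w z) (A b) B := by
    intro B A
    induction s using Finset.induction_on with
    | empty => simp [qm]
    | insert a s ha ih =>
      rw [Finset.sum_insert ha, Finset.sum_insert ha, qm_add_left,
        ih fun b hb => hχ b (Finset.mem_insert_of_mem hb)]
  have e1 : (fun y => (∑ b ∈ s, χ b y) * h y) = fun y => ∑ b ∈ s, χ b y * h y := by
    funext y; rw [Finset.sum_mul]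
  simp only [wd, qd_eq, e1, cHess_sum s hχ, cHess_sum s fun b hb => (hχ b hb).mul hh', hq]
  rw [Finset.sum_mul, Finset.sum_div, ← Finset.sum_sub_distrib, ← Finset.sum_add_distrib]

theorem wd_one (hh' : ContDiffAt ℝ ∞ h z) : wd w (fun _ => 1) h z = 0 := by
  have e1 : (fun y => (1 : ℝ) * h y) = h := by funext y; ring
  simp only [wd, e1, qd_eq, C2.cHess_const]
  simp [qm]

theorem wd_congr {χ χ' : Cm n → ℝ} (e : χ =ᶠ[𝓝 z] χ') (e' : h =ᶠ[𝓝 z] k) :
    wd w χ h z = wd w χ' k z := by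
  have e1 : (fun y => χ y * h y) =ᶠ[𝓝 z] fun y => χ' y * k y := e.mul e'
  have e2 : (fun y => h y ^ 2) =ᶠ[𝓝 z] fun y => k y ^ 2 := by
    filter_upwards [e'] with y hy
    rw [hy]
  simp only [wd, qd_eq, C2.cHess_congr e, C2.cHess_congr e', C2.cHess_congr e1, C2.cHess_congr e2,
    e.self_of_nhds]

theorem wd_eq_zero {χ : Cm n → ℝ} (e : χ =ᶠ[𝓝 z] fun _ => 0) : wd w χ h z = 0 := by
  rw [wd_congr e (EventuallyEq.refl _ h)]
  have e1 : (fun y => (0 : ℝ) * h y) = fun _ => 0 := by funext y; ring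
  simp only [wd, e1, qd_eq, C2.cHess_const]
  simp [qm]

theorem smooth_qd {U : Set (Cm n)} (hw : KU U w) (hz : z ∈ U) (hf : ContDiffAt ℝ ∞ f z)
    (hh' : ContDiffAt ℝ ∞ h z) : ContDiffAt ℝ ∞ (qd w f h) z :=
  ((smooth_lap hw hz hf).mul (smooth_lap hw hz hh')).sub (smooth_hh hw hz hf hh')

theorem smooth_wd {U : Set (Cm n)} (hw : KU U w) (hz : z ∈ U) {χ : Cm n → ℝ}
    (hχ : ContDiffAt ℝ ∞ χ z) (hh' : ContDiffAt ℝ ∞ h z) : ContDiffAt ℝ ∞ (wd w χ h) z :=
  ((hχ.mul (smooth_qd hw hz hh' hh')).sub (smooth_qd hw hz (hχ.mul hh') hh')).add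
    ((smooth_qd hw hz hχ (hh'.pow 2)).div_const 2)

end loc

end Vale.Agent.P281.H125.KH
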