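import Vale.Agent.P281.H64.TK.Spec

/-!
# P281, project T-K, block C2K (helper125): transition maps between the sheets
-/

open Set Filter Metric MeasureTheory Vale.Agent.P272.K
open scoped Topology ContDiff ComplexConjugate

noncomputable section

namespace Vale.Agent.P281.H125.KH.Sh

open Vale.Agent.P281.H64.TK

variable {d : ℕ} {E Γ : Type} [TopologicalSpace E] [Group Γ] [MulAction Γ E]
  (S : Sheets d E Γ)

/-- the points of the sheet `i` which lie in the sheet `j` (modulo `Γ`) -/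
def U (i j : Fin S.N) : Set (Cm d) :=
  {z | z ∈ ball (0 : Cm d) 3 ∧ ∃ (w : Cm d) (γ : Γ), w ∈ ball (0 : Cm d) 3 ∧ S.σ i z = γ • S.σ j w}

open Classical in
/-- the change of coordinates from the sheet `i` to the sheet `j` -/
def τ (i j : Fin S.N) (z : Cm d) : Cm d := if h : z ∈ U S i j then h.2.choose else 0

open Classical in
/-- the element of `Γ` of the change of sheets -/
def κ (i j : Fin S.N) (z : Cm d) : Γ := if h : z ∈ U S i j then h.2.choose_spec.choose else 1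

variable {S} {i j k : Fin S.N} {z w : Cm d} {γ : Γ}

theorem tau_spec (h : z ∈ U S i j) :
    τ S i j z ∈ ball (0 : Cm d) 3 ∧ S.σ i z = κ S i j z • S.σ j (τ S i j z) := by
  have h1 : τ S i j z = h.2.choose := by simp only [τ, h, dif_pos]
  have h2 : κ S i j z = h.2.choose_spec.choose := by simp only [κ, h, dif_pos]
  rw [h1, h2]
  exact h.2.choose_spec.choose_spec

theorem tau_mem (h : z ∈ U S i j) : τ S i j z ∈ ball (0 : Cm d) 3 := (tau_spec h).1

theorem sigma_eq (h : z ∈ U S i j) : S.σ i z = κ S i j z • S.σ j (τ S i j z) := (tau_spec h).2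

theorem mem_U (hz : z ∈ ball (0 : Cm d) 3) (hw : w ∈ ball (0 : Cm d) 3) (h : S.σ i z = γ • S.σ j w) :
    z ∈ U S i j := ⟨hz, w, γ, hw, h⟩

theorem U_sub : U S i j ⊆ ball 0 3 := fun _ h => h.1

theorem tau_unique (hz : z ∈ ball (0 : Cm d) 3) (hw : w ∈ ball (0 : Cm d) 3)
    (h : S.σ i z = γ • S.σ j w) : τ S i j z = w ∧ κ S i j z = γ := by
  have h1 := tau_spec (mem_U hz hw h)
  rw [h1.2] at h
  have h2 : (γ⁻¹ * κ S i j z) • S.σ j (τ S i j z) = S.σ j w := by
    rw [mul_smul, h, smul_smul, inv_mul_cancel, one_smul]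
  obtain ⟨h3, h4⟩ := S.inj j _ h1.1 _ hw _ h2
  exact ⟨h4, (inv_mul_eq_one.1 h3).symm⟩

theorem tau_self (hz : z ∈ ball (0 : Cm d) 3) : τ S i i z = z ∧ κ S i i z = 1 :=
  tau_unique hz hz (one_smul Γ (S.σ i z)).symm

theorem mem_U_self (hz : z ∈ ball (0 : Cm d) 3) : z ∈ U S i i :=
  mem_U hz hz (one_smul Γ (S.σ i z)).symm

theorem tau_mem_U (h : z ∈ U S i j) : τ S i j z ∈ U S j i ∧ τ S j i (τ S i j z) = z ∧
    κ S j i (τ S i j z) = (κ S i j z)⁻¹ := by
  have h1 := tau_spec h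
  have h2 : S.σ j (τ S i j z) = (κ S i j z)⁻¹ • S.σ i z := by
    rw [h1.2, smul_smul, inv_mul_cancel, one_smul]
  exact ⟨mem_U h1.1 h.1 h2, tau_unique h1.1 h.1 h2⟩

theorem tau_trans (h : z ∈ U S i j) (h' : τ S i j z ∈ U S j k) :
    z ∈ U S i k ∧ τ S i k z = τ S j k (τ S i j z) ∧
      κ S i k z = κ S i j z * κ S j k (τ S i j z) := by
  have h1 := tau_spec h
  have h2 := tau_spec h'
  have h3 : S.σ i z = (κ S i j z * κ S j k (τ S i j z)) • S.σ k (τ S j k (τ S i j z)) := by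
    rw [mul_smul, ← h2.2]
    exact h1.2
  exact ⟨mem_U h.1 h2.1 h3, tau_unique h.1 h2.1 h3⟩

/-- if `z` lies in the sheets `j` and `k`, then its coordinate in `j` lies in the sheet `k` -/
theorem tau_mem_U' (h : z ∈ U S i j) (h' : z ∈ U S i k) : τ S i j z ∈ U S j k := by
  have h1 := tau_mem_U h
  have h2 : τ S j i (τ S i j z) ∈ U S i k := by rw [h1.2.1]; exact h'
  exact (tau_trans h1.1 h2).1

theorem tau_local (h : z ∈ U S i j) : ∃ θ : Cm d → Cm d, AnalyticAt ℂ θ z ∧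
    ∀ᶠ u in 𝓝 z, u ∈ U S i j ∧ τ S i j u = θ u ∧ κ S i j u = κ S i j z := by
  obtain ⟨h1, h2⟩ := tau_spec h
  obtain ⟨θ, h3, h4, h5⟩ := S.hol i j z h.1 _ h1 _ h2
  refine ⟨θ, h3, ?_⟩
  have h6 : ∀ᶠ u in 𝓝 z, θ u ∈ ball (0 : Cm d) 3 := by
    refine h3.continuousAt.eventually ?_
    rw [h4]
    exact isOpen_ball.mem_nhds h1
  filter_upwards [h5, h6, isOpen_ball.mem_nhds h.1] with u a b c
  obtain ⟨h7, h8⟩ := tau_unique c b a
  exact ⟨mem_U c b a, h7, h8⟩

theorem isOpen_U : IsOpen (U S i j) := by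
  rw [isOpen_iff_mem_nhds]
  intro z hz
  obtain ⟨θ, -, h⟩ := tau_local hz
  filter_upwards [h] with u hu using hu.1

theorem analyticAt_tau (h : z ∈ U S i j) : AnalyticAt ℂ (τ S i j) z := by
  obtain ⟨θ, h1, h2⟩ := tau_local h
  exact h1.congr (h2.mono fun u hu => hu.2.1.symm)

theorem differentiableOn_tau : DifferentiableOn ℂ (τ S i j) (U S i j) :=
  fun _ h => (analyticAt_tau h).differentiableAt.differentiableWithinAt

theorem kappa_local (h : z ∈ U S i j) : ∀ᶠ u in 𝓝 z, κ S i j u = κ S i j z := by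
  obtain ⟨θ, h1, h2⟩ := tau_local h
  exact h2.mono fun u hu => hu.2.2


theorem differentiableOn_tau' : DifferentiableOn ℂ (τ S i j) (U S i j) :=
  fun _ h => (analyticAt_tau h).differentiableAt.differentiableWithinAt

theorem injOn_tau : InjOn (τ S i j) (U S i j) := by
  intro z hz w hw h
  have h1 := (tau_mem_U hz).2.1
  have h2 := (tau_mem_U hw).2.1
  rw [← h1, h, h2]

end Vale.Agent.P281.H125.KH.Sh
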